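import Vale.Agent.P141.PL.H319.Bad

/-! # The block `B5a` from the error of killing -/

namespace Vale.Agent.P141.PL.H319

open Finset Vale.Agent.P141.PL
open Vale.Agent.P141.PL.H315 (Tri atm wt wN cube3 mx e12 e13 e23 A2 A2_nonneg)
open Vale.Agent.P141.PL.H990 (stopped q12 q13 q23 Us mem_Us stp kR kR_iff kR_of_bad stp_congr kR_mono)
open Vale.Agent.P141.PL.H997 (mat matk matk_of matk_of_not)
open Vale.Agent.P141.PL.H317 (B5a Cap cbs i0 crn ed)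

noncomputable section

open scoped Classical

/-- an admissible family of sets of pairs -/
structure BF (β : ℝ) (b : ℕ → ℤ → ℤ → ℤ → Finset (ℤ × ℤ)) : Prop where
  sub : ∀ m n0 ni nj, b m n0 ni nj ⊆ iv m n0 ×ˢ iv m ni
  card : ∀ m n0 ni nj, ((b m n0 ni nj).card : ℝ) ≤ β * 4 ^ m

/-- **One face**: bad families and caps. -/
theorem face {n : ℕ} {e δ Λ : ℝ} (h0 : 0 < e) (h1 : e ≤ 1) (hδ : 0 ≤ δ)
    {G : ℕ → Pt → ℝ} (hG : Comp n e δ Λ G) {K : ℕ} (hK : K ≤ n) (a : ℤ × ℤ → ℝ) (y0 z0 : ℤ)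
    {M r s : ℝ} (hM : 0 ≤ M) (hr : 0 < r) (hs : 0 < s)
    (ha : ∀ y ∈ iv K (ix K y0), ∀ z ∈ iv K (ix K z0), |a (y, z)| ≤ M) :
    ∃ b1 b2 : ℕ → ℤ → ℤ → ℤ → Finset (ℤ × ℤ), BF (2 * r) b1 ∧ BF (2 * s) b2 ∧
      ∀ k ≤ K, ∀ x0 ny nz : ℤ, ny ∈ iv (K - k) (ix K y0) → nz ∈ iv (K - k) (ix K z0) →
        Cap k ny nz (96 * (δ * ((2 * √(A2 K a y0 z0)) ^ (1 - e) * M ^ e)) *
          (r * s) ^ (-(e / 2))) (matk (ed a) (kR K a b1 b2) G x0 k) := by
  set t := √(A2 K a y0 z0) with ht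
  have ht0 : 0 ≤ t := Real.sqrt_nonneg _
  have htt : (2 * t) ^ 2 = 4 * A2 K a y0 z0 := by
    rw [mul_pow, ht, Real.sq_sqrt (A2_nonneg _ _ _ _)]; norm_num
  obtain ⟨b1, b2, g1, g2, g3, g4, g5⟩ := exists_bad h0 h1 hδ hG hK (ed a) (ix K y0) (ix K z0) ht0 hM
    hr hs ha
  refine ⟨b1, b2, ⟨g1, g2⟩, ⟨g3, g4⟩, ?_⟩
  intro k hk x0 ny nz hy hz
  refine caps_face hk (by positivity) (q := A2 K a y0 z0) ?_ ?_ x0 ny nz hy hz
  · intro y hy z hz
    exact H990.A2_congr a hy hz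
  · intro n0 ny hy nz hz hS
    rw [← htt] at hS
    exact g5 k hk n0 ny hy nz hz hS

theorem edge_zero {K : ℕ} {a : ℤ × ℤ → ℝ} {y0 z0 : ℤ} (h : A2 K a y0 z0 = 0) :
    ∀ y ∈ iv K (ix K y0), ∀ z ∈ iv K (ix K z0), a (y, z) = 0 := by
  intro y hy z hz
  have h1 : SQ (ed a) K (ix K y0) (ix K z0) = 0 := by rw [SQ_eq, h, mul_zero]
  unfold SQ at h1
  have h2 := (sum_eq_zero_iff_of_nonneg fun y _ => sum_nonneg fun z _ => sq_nonneg _).1 h1 y hy
  have h3 := (sum_eq_zero_iff_of_nonneg fun z _ => sq_nonneg _).1 h2 z hz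
  exact pow_eq_zero_iff (two_ne_zero) |>.1 h3

theorem bound_pos {K : ℕ} {a : ℤ × ℤ → ℝ} {y0 z0 : ℤ} (h : 0 < A2 K a y0 z0) {M : ℝ}
    (ha : ∀ y ∈ iv K (ix K y0), ∀ z ∈ iv K (ix K z0), |a (y, z)| ≤ M) : 0 < M := by
  by_contra hM
  push Not at hM
  refine h.ne' ?_
  rw [A2_eq]
  unfold SQ
  rw [sum_eq_zero, mul_zero]
  intro y hy
  refine sum_eq_zero fun z hz => ?_
  have : ed a y z = 0 := abs_nonpos_iff.1 ((ha y hy z hz).trans hM)
  rw [this, zero_pow two_ne_zero]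

theorem le_mx_12 {K : ℕ} {x : Pt} {u : Tri} : ∀ y ∈ iv K (ix K x.1), ∀ z ∈ iv K (ix K x.2.1),
    |u.1 (y, z)| ≤ mx (cube3 K x) (e12 u.1) := by
  intro y hy z hz
  have h : ((y, z, x.2.2) : Pt) ∈ cube3 K x := H315.mem_cube3.2 ⟨hy, hz, H315.self_mem_iv K x.2.2⟩
  exact H315.abs_le_mx h (e12 u.1)

theorem le_mx_13 {K : ℕ} {x : Pt} {u : Tri} : ∀ y ∈ iv K (ix K x.1), ∀ z ∈ iv K (ix K x.2.2),
    |u.2.1 (y, z)| ≤ mx (cube3 K x) (e13 u.2.1) := by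
  intro y hy z hz
  have h : ((y, x.2.1, z) : Pt) ∈ cube3 K x := H315.mem_cube3.2 ⟨hy, H315.self_mem_iv K x.2.1, hz⟩
  exact H315.abs_le_mx h (e13 u.2.1)

theorem le_mx_23 {K : ℕ} {x : Pt} {u : Tri} : ∀ y ∈ iv K (ix K x.2.1), ∀ z ∈ iv K (ix K x.2.2),
    |u.2.2 (y, z)| ≤ mx (cube3 K x) (e23 u.2.2) := by
  intro y hy z hz
  have h : ((x.1, y, z) : Pt) ∈ cube3 K x := H315.mem_cube3.2 ⟨H315.self_mem_iv K x.1, hy, hz⟩
  exact H315.abs_le_mx h (e23 u.2.2)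

/-- the sup norms of the three edges on a cube -/
def S12 (u : Tri) (K : ℕ) (x : Pt) : ℝ := mx (cube3 K x) (e12 u.1)
@[inherit_doc S12] def S13 (u : Tri) (K : ℕ) (x : Pt) : ℝ := mx (cube3 K x) (e13 u.2.1)
@[inherit_doc S12] def S23 (u : Tri) (K : ℕ) (x : Pt) : ℝ := mx (cube3 K x) (e23 u.2.2)

/-- The error of killing, when the three norms are positive. -/
def Err (n : ℕ) (e δ Λ θ P : ℝ) : Prop :=
  ∀ G1 G2 G3 : ℕ → Pt → ℝ, Comp n e δ Λ G1 → Comp n e δ Λ G2 → Comp n e δ Λ G3 →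
  ∀ o : ℤ, |o| = 1 → ∀ K ≤ n, ∀ (x : Pt) (u : Tri), 0 < q12 u K x → 0 < q13 u K x →
  0 < q23 u K x → ∀ bA1 bA2 bB2 bB3 bC1 bC3 : ℕ → ℤ → ℤ → ℤ → Finset (ℤ × ℤ),
    BF (2 * (θ * (√(q13 u K x) / S13 u K x) ^ 2)) bA1 →
    BF (2 * (θ * (√(q23 u K x) / S23 u K x) ^ 2)) bA2 →
    BF (2 * (θ * (√(q12 u K x) / S12 u K x) ^ 2)) bB2 →
    BF (2 * (θ * (√(q13 u K x) / S13 u K x) ^ 2)) bB3 →
    BF (2 * (θ * (√(q12 u K x) / S12 u K x) ^ 2)) bC1 →
    BF (2 * (θ * (√(q23 u K x) / S23 u K x) ^ 2)) bC3 →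
    ∑ k ∈ Icc 1 K, (2 ^ k : ℝ)⁻¹ * ∑ m ∈ cbs K (cx K x) k with ¬ stopped u K k (crn k m),
      ∑ x0 ∈ iv k (i0 o m),
        |tri k m (mat (ed u.1) G3 x0 k) (mat (ed u.2.2) G1 x0 k) (mat (ed u.2.1) G2 x0 k) -
          tri k m (matk (ed u.1) (kR K u.1 bA1 bA2) G3 x0 k)
            (matk (ed u.2.2) (kR K u.2.2 bB2 bB3) G1 x0 k)
            (matk (ed u.2.1) (kR K u.2.1 bC1 bC3) G2 x0 k)| ≤
      P * wt δ e (cube3 K x) u

theorem tri_zero1 {k : ℕ} {m : Pt} {A B C : ℤ → ℤ → ℝ}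
    (h : ∀ x ∈ iv k m.1, ∀ y ∈ iv k m.2.1, A x y = 0) : tri k m A B C = 0 := by
  unfold tri
  refine sum_eq_zero fun x hx => sum_eq_zero fun y hy => sum_eq_zero fun z _ => ?_
  rw [h x hx y hy]; ring

theorem tri_zero2 {k : ℕ} {m : Pt} {A B C : ℤ → ℤ → ℝ}
    (h : ∀ x ∈ iv k m.2.1, ∀ y ∈ iv k m.2.2, B x y = 0) : tri k m A B C = 0 := by
  unfold tri
  refine sum_eq_zero fun x _ => sum_eq_zero fun y hy => sum_eq_zero fun z hz => ?_
  rw [h y hy z hz]; ring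

theorem tri_zero3 {k : ℕ} {m : Pt} {A B C : ℤ → ℤ → ℝ}
    (h : ∀ x ∈ iv k m.1, ∀ y ∈ iv k m.2.2, C x y = 0) : tri k m A B C = 0 := by
  unfold tri
  refine sum_eq_zero fun x hx => sum_eq_zero fun y _ => sum_eq_zero fun z hz => ?_
  rw [h x hx z hz]; ring

theorem matk_true (a : ℤ → ℤ → ℝ) (G : ℕ → Pt → ℝ) (x0 : ℤ) (k : ℕ) :
    matk a (fun _ _ => True) G x0 k = fun _ _ => 0 := by
  funext x y
  exact matk_of trivial

theorem cap_zero (k : ℕ) (m1 m2 : ℤ) : Cap k m1 m2 0 (fun _ _ => 0) := by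
  intro v w
  simp

/-- **B5a** from the error of killing. -/
theorem b5a_of_err {n : ℕ} {e δ Λ θ P : ℝ} (h0 : 0 < e) (h1 : e ≤ 1) (hδ : 0 < δ) (hθ : 0 < θ)
    (hP : 0 ≤ P) (hE : Err n e δ Λ θ P) : B5a n e δ Λ (192 * θ ^ (-e)) P := by
  intro G1 G2 G3 hG1 hG2 hG3 o ho K hK x u
  have hwt := H315.wt_nonneg hδ.le e (cube3 K x) u
  have hwN : wN δ e K x u = δ * ((S12 u K x ^ e * S13 u K x ^ e * S23 u K x ^ e) *
      (√(q12 u K x) * √(q13 u K x) * √(q23 u K x)) ^ (1 - e)) := by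
    rw [H990.wN_eq, H990.hLW_eq]
    rfl
  have hwN0 : 0 ≤ wN δ e K x u := by
    have h4 := hwt
    rw [H315.wt_eq] at h4
    exact nonneg_of_mul_nonneg_right h4 (H315.card_cube3_pos K x)
  by_cases hT : 0 < q12 u K x ∧ 0 < q13 u K x ∧ 0 < q23 u K x
  · obtain ⟨p12, p13, p23⟩ := hT
    have M12 : 0 < S12 u K x := bound_pos p12 le_mx_12
    have M13 : 0 < S13 u K x := bound_pos p13 le_mx_13
    have M23 : 0 < S23 u K x := bound_pos p23 le_mx_23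
    have t12 : 0 < √(q12 u K x) := Real.sqrt_pos.2 p12
    have t13 : 0 < √(q13 u K x) := Real.sqrt_pos.2 p13
    have t23 : 0 < √(q23 u K x) := Real.sqrt_pos.2 p23
    set r12 := θ * (√(q12 u K x) / S12 u K x) ^ 2 with hr12
    set r13 := θ * (√(q13 u K x) / S13 u K x) ^ 2 with hr13
    set r23 := θ * (√(q23 u K x) / S23 u K x) ^ 2 with hr23
    have i12 : 0 < r12 := by positivity
    have i13 : 0 < r13 := by positivity
    have i23 : 0 < r23 := by positivity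
    obtain ⟨bA1, bA2, fA1, fA2, capA⟩ := face h0 h1 hδ.le hG3 hK u.1 x.1 x.2.1 M12.le i13 i23
      le_mx_12
    obtain ⟨bB2, bB3, fB2, fB3, capB⟩ := face h0 h1 hδ.le hG1 hK u.2.2 x.2.1 x.2.2 M23.le i12 i13
      le_mx_23
    obtain ⟨bC1, bC3, fC1, fC3, capC⟩ := face h0 h1 hδ.le hG2 hK u.2.1 x.1 x.2.2 M13.le i12 i23
      le_mx_13
    refine ⟨kR K u.2.2 bB2 bB3, kR K u.2.1 bC1 bC3, kR K u.1 bA1 bA2,
      96 * (δ * ((2 * √(q23 u K x)) ^ (1 - e) * S23 u K x ^ e)) * (r12 * r13) ^ (-(e / 2)),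
      96 * (δ * ((2 * √(q13 u K x)) ^ (1 - e) * S13 u K x ^ e)) * (r12 * r23) ^ (-(e / 2)),
      96 * (δ * ((2 * √(q12 u K x)) ^ (1 - e) * S12 u K x ^ e)) * (r13 * r23) ^ (-(e / 2)),
      kR_mono _ _ _ _, kR_mono _ _ _ _, kR_mono _ _ _ _, by positivity, by positivity,
      by positivity, ?_, ?_, ?_, ?_, ?_⟩
    · have := cap_const h0.le hδ.le hθ t12 M12 t13 M13 t23 M23
      rw [hwN]
      exact this
    · have := cap_const h0.le hδ.le hθ t23 M23 t12 M12 t13 M13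
      rw [hwN]
      refine this.trans (le_of_eq ?_)
      rw [show √(q23 u K x) * √(q12 u K x) * √(q13 u K x) =
        √(q12 u K x) * √(q13 u K x) * √(q23 u K x) by ring]
      ring
    · have := cap_const h0.le hδ.le hθ t13 M13 t12 M12 t23 M23
      rw [hwN]
      refine this.trans (le_of_eq ?_)
      rw [show √(q13 u K x) * √(q12 u K x) * √(q23 u K x) =
        √(q12 u K x) * √(q13 u K x) * √(q23 u K x) by ring]
      ring
    · intro k hk x0 m hm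
      rw [mem_Icc] at hk
      unfold cbs cx at hm
      rw [mem_product, mem_product] at hm
      exact ⟨capA k hk.2 x0 _ _ hm.1 hm.2.1, capB k hk.2 x0 _ _ hm.2.1 hm.2.2,
        capC k hk.2 x0 _ _ hm.1 hm.2.2⟩
    · exact hE G1 G2 G3 hG1 hG2 hG3 o ho K hK x u p12 p13 p23 bA1 bA2 bB2 bB3 bC1 bC3 fA1 fA2 fB2
        fB3 fC1 fC3
  · -- one of the edge functions vanishes
    have hz : ∀ k ∈ Icc 1 K, ∀ m ∈ cbs K (cx K x) k, ∀ x0 : ℤ,
        tri k m (mat (ed u.1) G3 x0 k) (mat (ed u.2.2) G1 x0 k) (mat (ed u.2.1) G2 x0 k) = 0 := by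
      intro k hk m hm x0
      rw [mem_Icc] at hk
      unfold cbs cx at hm
      rw [mem_product, mem_product] at hm
      obtain ⟨hm1, hm2, hm3⟩ := hm
      by_cases c1 : 0 < q12 u K x
      · by_cases c2 : 0 < q13 u K x
        · have c3 : q23 u K x = 0 := by
            have h3 : ¬ 0 < q23 u K x := fun h => hT ⟨c1, c2, h⟩
            exact le_antisymm (not_lt.1 h3) (H990.q23_nonneg u K x)
          refine tri_zero2 fun y hy z hz => ?_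
          unfold mat ed
          rw [edge_zero c3 y (sub_cube hk.2 hm2 hy) z (sub_cube hk.2 hm3 hz), zero_mul]
        · have c3 : q13 u K x = 0 := le_antisymm (not_lt.1 c2) (H990.q13_nonneg u K x)
          refine tri_zero3 fun y hy z hz => ?_
          unfold mat ed
          rw [edge_zero c3 y (sub_cube hk.2 hm1 hy) z (sub_cube hk.2 hm3 hz), zero_mul]
      · have c3 : q12 u K x = 0 := le_antisymm (not_lt.1 c1) (H990.q12_nonneg u K x)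
        refine tri_zero1 fun y hy z hz => ?_
        unfold mat ed
        rw [edge_zero c3 y (sub_cube hk.2 hm1 hy) z (sub_cube hk.2 hm2 hz), zero_mul]
    have hc : 0 ≤ 192 * θ ^ (-e) * wN δ e K x u := by positivity
    refine ⟨fun _ _ => True, fun _ _ => True, fun _ _ => True, 0, 0, 0, fun _ _ _ _ _ => trivial,
      fun _ _ _ _ _ => trivial, fun _ _ _ _ _ => trivial, le_rfl, le_rfl, le_rfl,
      by rw [zero_mul]; exact hc, by rw [zero_mul]; exact hc, by rw [zero_mul]; exact hc, ?_, ?_⟩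
    · intro k _ x0 m _
      rw [matk_true, matk_true, matk_true]
      exact ⟨cap_zero _ _ _, cap_zero _ _ _, cap_zero _ _ _⟩
    · refine le_trans (le_of_eq ?_) (mul_nonneg hP hwt)
      refine sum_eq_zero fun k hk => ?_
      rw [sum_eq_zero, mul_zero]
      intro m hm
      rw [mem_filter] at hm
      refine sum_eq_zero fun x0 _ => ?_
      rw [hz k hk m hm.1 x0, matk_true, tri_zero1 (A := fun _ _ => 0) (fun _ _ _ _ => rfl), sub_zero,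
        abs_zero]

end

end Vale.Agent.P141.PL.H319
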