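import Vale.Agent.P141.PL.H319.Six
import Vale.Agent.P141.PL.H990.KillSet
import Vale.Agent.P141.PL.H314.RemNode

/-! # Bad families of one face, kill set, caps -/

namespace Vale.Agent.P141.PL.H319

open Finset Vale.Agent.P141.PL
open Vale.Agent.P141.PL.H315 (Tri atm wt wN cube3 mx e12 e13 e23 A2 A2_nonneg)
open Vale.Agent.P141.PL.H990 (stopped q12 q13 q23 Us mem_Us stp kR kR_iff kR_of_bad stp_congr kR_mono)
open Vale.Agent.P141.PL.H997 (mat matk matk_of matk_of_not)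
open Vale.Agent.P141.PL.H317 (B5a Cap cbs i0 crn ed)

noncomputable section

open scoped Classical

/-- the square sum of an edge function over a square of scale `m` -/
def SQ (a : ℤ → ℤ → ℝ) (m : ℕ) (ny nz : ℤ) : ℝ := ∑ y ∈ iv m ny, ∑ z ∈ iv m nz, a y z ^ 2

theorem SQ_nonneg (a : ℤ → ℤ → ℝ) (m : ℕ) (ny nz : ℤ) : 0 ≤ SQ a m ny nz :=
  sum_nonneg fun _ _ => sum_nonneg fun _ _ => sq_nonneg _

theorem A2_eq (m : ℕ) (a : ℤ × ℤ → ℝ) (y z : ℤ) :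
    A2 m a y z = (4 ^ m : ℝ)⁻¹ * SQ (ed a) m (ix m y) (ix m z) := by
  unfold A2 H315.avg SQ ed
  have e1 : H315.iv m y = iv m (ix m y) := rfl
  have e2 : H315.iv m z = iv m (ix m z) := rfl
  rw [e1, e2, card_product, card_iv, card_iv, sum_product]
  congr 2
  push_cast
  rw [← mul_pow]
  norm_num

theorem SQ_eq (m : ℕ) (a : ℤ × ℤ → ℝ) (y z : ℤ) :
    SQ (ed a) m (ix m y) (ix m z) = 4 ^ m * A2 m a y z := by
  rw [A2_eq, ← mul_assoc, mul_inv_cancel₀ (by positivity), one_mul]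

theorem iv_nonempty (k : ℕ) (m : ℤ) : (iv k m).Nonempty := by
  rw [← card_pos, card_iv]; positivity

theorem sub_cube {k K : ℕ} (h : k ≤ K) {M m x : ℤ} (hm : m ∈ iv (K - k) M) (hx : x ∈ iv k m) :
    x ∈ iv K M := by
  rw [mem_iv] at hm hx ⊢
  rw [← hm, ← hx, ix_ix]
  congr 1
  omega

/-- **Bad families of one face.** -/
theorem exists_bad {n : ℕ} {e δ Λ : ℝ} (h0 : 0 < e) (h1 : e ≤ 1) (hδ : 0 ≤ δ)
    {G : ℕ → Pt → ℝ} (hG : Comp n e δ Λ G) {K : ℕ} (hK : K ≤ n) (a : ℤ → ℤ → ℝ) (My Mz : ℤ)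
    {t M r s : ℝ} (ht : 0 ≤ t) (hM : 0 ≤ M) (hr : 0 < r) (hs : 0 < s)
    (ha : ∀ y ∈ iv K My, ∀ z ∈ iv K Mz, |a y z| ≤ M) :
    ∃ b1 b2 : ℕ → ℤ → ℤ → ℤ → Finset (ℤ × ℤ),
      (∀ m n0 ny nz, b1 m n0 ny nz ⊆ iv m n0 ×ˢ iv m ny) ∧
      (∀ m n0 ny nz, ((b1 m n0 ny nz).card : ℝ) ≤ 2 * r * 4 ^ m) ∧
      (∀ m n0 nz ny, b2 m n0 nz ny ⊆ iv m n0 ×ˢ iv m nz) ∧
      (∀ m n0 nz ny, ((b2 m n0 nz ny).card : ℝ) ≤ 2 * s * 4 ^ m) ∧
      ∀ k ≤ K, ∀ n0, ∀ ny ∈ iv (K - k) My, ∀ nz ∈ iv (K - k) Mz,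
        SQ a k ny nz ≤ 4 ^ k * (2 * t) ^ 2 →
        ∀ x0 ∈ iv k n0, ∀ α β : ℤ → ℝ, (∀ y ∈ iv k ny, (x0, y) ∈ b1 k n0 ny nz → α y = 0) →
          (∀ z ∈ iv k nz, (x0, z) ∈ b2 k n0 nz ny → β z = 0) →
          |∑ y ∈ iv k ny, ∑ z ∈ iv k nz, a y z * G k (x0, y, z) * α y * β z| ≤
            96 * (δ * ((2 * t) ^ (1 - e) * M ^ e)) * (r * s) ^ (-(e / 2)) * 2 ^ k *
              (√(∑ y ∈ iv k ny, α y ^ 2) * √(∑ z ∈ iv k nz, β z ^ 2)) := by
  have hτ : 0 ≤ δ * ((2 * t) ^ (1 - e) * M ^ e) := by positivity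
  have hp : ∀ m : ℕ, (2 : ℝ) ^ m * 2 ^ m = 4 ^ m := fun m => by rw [← mul_pow]; norm_num
  have hq : ∀ m : ℕ, √((2 : ℝ) ^ m) * √(2 ^ m) = 2 ^ m := fun m => Real.mul_self_sqrt (by positivity)
  have key : ∀ (m : ℕ) (n0 ny nz : ℤ), ∃ B₁ B₂ : Finset (ℤ × ℤ), B₁ ⊆ iv m n0 ×ˢ iv m ny ∧
      B₂ ⊆ iv m n0 ×ˢ iv m nz ∧ (B₁.card : ℝ) ≤ 2 * r * 4 ^ m ∧ (B₂.card : ℝ) ≤ 2 * s * 4 ^ m ∧
      (m ≤ K → ny ∈ iv (K - m) My → nz ∈ iv (K - m) Mz → SQ a m ny nz ≤ 4 ^ m * (2 * t) ^ 2 →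
        ∀ x0 ∈ iv m n0, ∀ α β : ℤ → ℝ, (∀ y ∈ iv m ny, (x0, y) ∈ B₁ → α y = 0) →
          (∀ z ∈ iv m nz, (x0, z) ∈ B₂ → β z = 0) →
          |∑ y ∈ iv m ny, ∑ z ∈ iv m nz, a y z * G m (x0, y, z) * α y * β z| ≤
            96 * (δ * ((2 * t) ^ (1 - e) * M ^ e)) * (r * s) ^ (-(e / 2)) * 2 ^ m *
              (√(∑ y ∈ iv m ny, α y ^ 2) * √(∑ z ∈ iv m nz, β z ^ 2))) := by
    intro m n0 ny nz
    by_cases hc : m ≤ K ∧ ny ∈ iv (K - m) My ∧ nz ∈ iv (K - m) Mz ∧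
        SQ a m ny nz ≤ 4 ^ m * (2 * t) ^ 2
    · obtain ⟨c1, c2, c3, c4⟩ := hc
      have hu := H314.Comp.unifN hδ h0.le h1 hG (le_refl m) (c1.trans hK) (n0, ny, nz)
      have ht' : Tst e (δ * ((2 * t) ^ (1 - e) * M ^ e)) (iv m n0) (iv m ny) (iv m nz)
          (fun x y z => a y z * G m (x, y, z)) := by
        refine Tst.of_unif hu (v := a) (by positivity) hM ?_ ?_
        · rw [card_iv, card_iv]
          push_cast
          rw [hp]
          exact c4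
        · intro y hy z hz
          exact ha y (sub_cube c1 c2 hy) z (sub_cube c1 c3 hz)
      obtain ⟨B₁, B₂, g1, g2, g3, g4, g5⟩ := caps_fin h0 h1 hτ hr hs (iv_nonempty m n0)
        (iv_nonempty m ny) (iv_nonempty m nz) ht'
      rw [card_iv, card_iv] at g3 g4
      push_cast at g3 g4
      rw [hp] at g3 g4
      refine ⟨B₁, B₂, g1, g2, g3, g4, ?_⟩
      intro _ _ _ _ x0 hx0 α β hα hβ
      have := g5 x0 hx0 α β hα hβ
      rw [card_iv, card_iv] at this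
      push_cast at this
      rw [hq] at this
      exact this
    · refine ⟨∅, ∅, empty_subset _, empty_subset _, ?_, ?_, ?_⟩
      · simp only [card_empty]; push_cast; positivity
      · simp only [card_empty]; push_cast; positivity
      · intro c1 c2 c3 c4
        exact absurd ⟨c1, c2, c3, c4⟩ hc
  choose b1 b2 f1 f2 f3 f4 f5 using key
  exact ⟨b1, fun m n0 nz ny => b2 m n0 ny nz, f1, f3, fun m n0 nz ny => f2 m n0 ny nz,
    fun m n0 nz ny => f4 m n0 ny nz, fun k hk n0 ny hy nz hz hS => f5 k n0 ny nz hk hy hz hS⟩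

theorem ix_self (k : ℕ) (t : ℤ) : ix k (2 ^ k * t) = t := by
  unfold ix
  rw [Int.mul_ediv_cancel_left _ (by positivity)]

/-- **Caps of one face**, on every block. -/
theorem caps_face {K k : ℕ} (hk : k ≤ K) {q c : ℝ} {a : ℤ × ℤ → ℝ} {G : ℕ → Pt → ℝ}
    {My Mz : ℤ} {b1 b2 : ℕ → ℤ → ℤ → ℤ → Finset (ℤ × ℤ)} (hc : 0 ≤ c)
    (hq : ∀ y ∈ iv K My, ∀ z ∈ iv K Mz, A2 K a y z = q)
    (hb : ∀ n0, ∀ ny ∈ iv (K - k) My, ∀ nz ∈ iv (K - k) Mz,
        SQ (ed a) k ny nz ≤ 4 ^ k * (4 * q) →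
        ∀ x0 ∈ iv k n0, ∀ α β : ℤ → ℝ, (∀ y ∈ iv k ny, (x0, y) ∈ b1 k n0 ny nz → α y = 0) →
          (∀ z ∈ iv k nz, (x0, z) ∈ b2 k n0 nz ny → β z = 0) →
          |∑ y ∈ iv k ny, ∑ z ∈ iv k nz, ed a y z * G k (x0, y, z) * α y * β z| ≤
            c * 2 ^ k * (√(∑ y ∈ iv k ny, α y ^ 2) * √(∑ z ∈ iv k nz, β z ^ 2)))
    (x0 ny nz : ℤ) (hny : ny ∈ iv (K - k) My) (hnz : nz ∈ iv (K - k) Mz) :
    Cap k ny nz c (matk (ed a) (kR K a b1 b2) G x0 k) := by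
  intro v w
  have hV : 0 ≤ ∑ y ∈ iv k ny, v y ^ 2 := sum_nonneg fun _ _ => sq_nonneg _
  have hW : 0 ≤ ∑ z ∈ iv k nz, w z ^ 2 := sum_nonneg fun _ _ => sq_nonneg _
  by_cases hd : stp a K k (x0, 2 ^ k * ny, 2 ^ k * nz)
  · -- dead block
    have hz : ∑ y ∈ iv k ny, ∑ z ∈ iv k nz,
        v y * w z * matk (ed a) (kR K a b1 b2) G x0 k y z = 0 := by
      refine sum_eq_zero fun y hy => sum_eq_zero fun z hz => ?_
      rw [matk_of, mul_zero]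
      left
      refine (stp_congr (x := x0) (x' := x0) hk ?_ ?_).1 hd
      · rw [ix_self, mem_iv.mp hy]
      · rw [ix_self, mem_iv.mp hz]
    rw [hz, zero_pow two_ne_zero]
    positivity
  · have hS : SQ (ed a) k ny nz ≤ 4 ^ k * (4 * q) := by
      have h1 : ¬ 4 * A2 K a (2 ^ k * ny) (2 ^ k * nz) < A2 k a (2 ^ k * ny) (2 ^ k * nz) :=
        fun h => hd ⟨k, le_rfl, hk, h⟩
      rw [hq _ (sub_cube hk hny (mem_iv.mpr (ix_self k ny))) _
        (sub_cube hk hnz (mem_iv.mpr (ix_self k nz))), not_lt] at h1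
      have h2 := SQ_eq k a (2 ^ k * ny) (2 ^ k * nz)
      rw [ix_self, ix_self] at h2
      rw [h2]
      exact mul_le_mul_of_nonneg_left h1 (by positivity)
    set n0 := ix k x0 with hn0
    have hx0 : x0 ∈ iv k n0 := self_mem_iv _ _
    set U1 := Us K b1 k n0 ny nz with hU1
    set U2 := Us K b2 k n0 nz ny with hU2
    have hmat : ∀ y ∈ iv k ny, ∀ z ∈ iv k nz, matk (ed a) (kR K a b1 b2) G x0 k y z =
        ed a y z * G k (x0, y, z) * cnd U1 x0 y * cnd U2 x0 z := by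
      intro y hy z hz
      have hst : ¬ stp a K k (x0, y, z) := by
        intro h
        refine hd ((stp_congr (x := x0) (x' := x0) hk ?_ ?_).1 h)
        · rw [ix_self, mem_iv.mp hy]
        · rw [ix_self, mem_iv.mp hz]
      have hiff := kR_iff (b1 := b1) (b2 := b2) hx0 hy hz hst
      by_cases hR : kR K a b1 b2 k (x0, y, z)
      · rw [matk_of hR]
        rcases hiff.1 hR with h | h
        · unfold cnd; rw [if_pos h]; ring
        · unfold cnd; rw [if_pos h]; ring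
      · rw [matk_of_not hR]
        have h := mt hiff.2 hR
        push Not at h
        unfold cnd
        rw [if_neg h.1, if_neg h.2]
        ring
    have hsub : ∀ (b : ℕ → ℤ → ℤ → ℤ → Finset (ℤ × ℤ)) (ni nj : ℤ), ∀ y ∈ iv k ni,
        (x0, y) ∈ b k n0 ni nj → (x0, y) ∈ Us K b k n0 ni nj := by
      intro b ni nj y hy h
      rw [mem_Us]
      refine ⟨⟨hn0.symm, mem_iv.mp hy⟩, k, le_rfl, hk, ?_⟩
      rw [Nat.sub_self, pow_zero, Int.ediv_one, Int.ediv_one, Int.ediv_one]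
      exact h
    have key := hb n0 ny hny nz hnz hS x0 hx0 (fun y => v y * cnd U1 x0 y)
      (fun z => w z * cnd U2 x0 z)
      (fun y hy h => by
        have := hsub b1 ny nz y hy h
        unfold cnd
        rw [if_pos this, mul_zero])
      (fun z hz h => by
        have := hsub b2 nz ny z hz h
        unfold cnd
        rw [if_pos this, mul_zero])
    have e1 : ∑ y ∈ iv k ny, ∑ z ∈ iv k nz,
        v y * w z * matk (ed a) (kR K a b1 b2) G x0 k y z =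
        ∑ y ∈ iv k ny, ∑ z ∈ iv k nz, ed a y z * G k (x0, y, z) * (v y * cnd U1 x0 y) *
          (w z * cnd U2 x0 z) := by
      refine sum_congr rfl fun y hy => sum_congr rfl fun z hz => ?_
      rw [hmat y hy z hz]
      ring
    rw [e1]
    have hle : ∀ (f : ℤ → ℝ) (U : Finset (ℤ × ℤ)) (j : ℤ),
        √(∑ y ∈ iv k j, (f y * cnd U x0 y) ^ 2) ≤ √(∑ y ∈ iv k j, f y ^ 2) := by
      intro f U j
      refine Real.sqrt_le_sqrt (sum_le_sum fun y _ => ?_)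
      rw [mul_comm]
      exact sq_mul_le (abs_cnd_le _ _ _)
    have k2 := key.trans (mul_le_mul_of_nonneg_left (mul_le_mul (hle v U1 ny) (hle w U2 nz)
      (Real.sqrt_nonneg _) (Real.sqrt_nonneg _)) (by positivity))
    calc _ = |∑ y ∈ iv k ny, ∑ z ∈ iv k nz, ed a y z * G k (x0, y, z) * (v y * cnd U1 x0 y) *
          (w z * cnd U2 x0 z)| ^ 2 := (sq_abs _).symm
      _ ≤ (c * 2 ^ k * (√(∑ y ∈ iv k ny, v y ^ 2) * √(∑ z ∈ iv k nz, w z ^ 2))) ^ 2 :=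
          pow_le_pow_left₀ (abs_nonneg _) k2 2
      _ = _ := by
          rw [mul_pow, mul_pow (√(∑ y ∈ iv k ny, v y ^ 2)), Real.sq_sqrt hV, Real.sq_sqrt hW]
          ring

/-- The constant of the caps. -/
theorem cap_const {e δ θ t M t' M' t'' M'' : ℝ} (h0 : 0 ≤ e) (hδ : 0 ≤ δ) (hθ : 0 < θ)
    (ht : 0 < t) (hM : 0 < M) (ht' : 0 < t') (hM' : 0 < M') (ht'' : 0 < t'') (hM'' : 0 < M'') :
    96 * (δ * ((2 * t) ^ (1 - e) * M ^ e)) *
      ((θ * (t' / M') ^ 2) * (θ * (t'' / M'') ^ 2)) ^ (-(e / 2)) * (t' * t'') ≤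
      192 * θ ^ (-e) * (δ * ((M ^ e * M' ^ e * M'' ^ e) * (t * t' * t'') ^ (1 - e))) := by
  have h2 : (2 : ℝ) ^ (1 - e) ≤ 2 := by
    calc (2 : ℝ) ^ (1 - e) ≤ 2 ^ (1 : ℝ) :=
          Real.rpow_le_rpow_of_exponent_le (by norm_num) (by linarith)
      _ = 2 := Real.rpow_one 2
  have e1 : ((θ * (t' / M') ^ 2) * (θ * (t'' / M'') ^ 2)) ^ (-(e / 2)) =
      θ ^ (-e) * (t' ^ (-e) * M' ^ e) * (t'' ^ (-e) * M'' ^ e) := by
    have : (θ * (t' / M') ^ 2) * (θ * (t'' / M'') ^ 2) = (θ * (t' / M') * (t'' / M'')) ^ (2 : ℝ) := by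
      rw [Real.rpow_two]; ring
    rw [this, ← Real.rpow_mul (by positivity), show (2 : ℝ) * -(e / 2) = -e by ring,
      Real.mul_rpow (by positivity) (by positivity), Real.mul_rpow (by positivity) (by positivity),
      Real.div_rpow ht'.le hM'.le, Real.div_rpow ht''.le hM''.le,
      Real.rpow_neg hM'.le, Real.rpow_neg hM''.le, div_inv_eq_mul, div_inv_eq_mul]
  have e2 : ∀ s : ℝ, 0 < s → s ^ (-e) * s = s ^ (1 - e) := by
    intro s hs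
    nth_rewrite 2 [← Real.rpow_one s]
    rw [← Real.rpow_add hs]
    congr 1
    ring
  rw [e1, Real.mul_rpow (by norm_num) ht.le, Real.mul_rpow (by positivity) ht''.le,
    Real.mul_rpow ht.le ht'.le, ← e2 t' ht', ← e2 t'' ht'']
  calc _ = 96 * 2 ^ (1 - e) * (θ ^ (-e) * (δ * ((M ^ e * M' ^ e * M'' ^ e) *
        (t ^ (1 - e) * (t' ^ (-e) * t') * (t'' ^ (-e) * t''))))) := by ring
    _ ≤ 96 * 2 * (θ ^ (-e) * (δ * ((M ^ e * M' ^ e * M'' ^ e) *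
        (t ^ (1 - e) * (t' ^ (-e) * t') * (t'' ^ (-e) * t''))))) := by
        refine mul_le_mul_of_nonneg_right (by linarith) (by positivity)
    _ = _ := by ring

end

end Vale.Agent.P141.PL.H319
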