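import Vale.Agent.P141.H319.Node
import Vale.Agent.P141.PL.H317.Rem

/-! # Node estimates on finite boxes of integers -/

namespace Vale.Agent.P141.PL.H319

open Finset Vale.Agent.P141.H319 Vale.Agent.P141.PL.H317

noncomputable section

/-- `D` is tested by products of two functions of `(x, y)` and `(x, z)`. -/
def Tst (e τ : ℝ) (s0 s1 s2 : Finset ℤ) (D : ℤ → ℤ → ℤ → ℝ) : Prop :=
  ∀ (α β : ℤ → ℤ → ℝ) (a A b B : ℝ), 0 ≤ a → 0 ≤ A → 0 ≤ b → 0 ≤ B →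
    ∑ x ∈ s0, ∑ y ∈ s1, α x y ^ 2 ≤ (s0.card : ℝ) * s1.card * a ^ 2 →
    (∀ x ∈ s0, ∀ y ∈ s1, |α x y| ≤ A) →
    ∑ x ∈ s0, ∑ z ∈ s2, β x z ^ 2 ≤ (s0.card : ℝ) * s2.card * b ^ 2 →
    (∀ x ∈ s0, ∀ z ∈ s2, |β x z| ≤ B) →
    |∑ x ∈ s0, ∑ y ∈ s1, ∑ z ∈ s2, D x y z * α x y * β x z| ≤
      (s0.card : ℝ) * s1.card * s2.card * (τ * (a ^ (1 - e) * A ^ e) * (b ^ (1 - e) * B ^ e))

/-- uniform functions times an edge function are tested -/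
theorem Tst.of_unif {e δ t M : ℝ} {s0 s1 s2 : Finset ℤ} {G : ℤ → ℤ → ℤ → ℝ}
    (h : Unif δ e s0 s1 s2 G) {v : ℤ → ℤ → ℝ} (ht : 0 ≤ t) (hM : 0 ≤ M)
    (hv : ∑ y ∈ s1, ∑ z ∈ s2, v y z ^ 2 ≤ (s1.card : ℝ) * s2.card * t ^ 2)
    (hv' : ∀ y ∈ s1, ∀ z ∈ s2, |v y z| ≤ M) :
    Tst e (δ * (t ^ (1 - e) * M ^ e)) s0 s1 s2 (fun x y z => v y z * G x y z) := by
  intro α β a A b B ha hA hb hB h1 h2 h3 h4
  have := h α v β a t b A M B ha ht hb hA hM hB h1 h2 hv hv' h3 h4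
  refine le_trans (le_of_eq ?_) (this.trans (le_of_eq ?_))
  · congr 1
    refine sum_congr rfl fun x _ => sum_congr rfl fun y _ => sum_congr rfl fun z _ => ?_
    ring
  · ring

/-- stability under cut-offs -/
theorem Tst.mul {e τ : ℝ} {s0 s1 s2 : Finset ℤ} {D : ℤ → ℤ → ℤ → ℝ} (h : Tst e τ s0 s1 s2 D)
    {m n : ℤ → ℤ → ℝ} (hm : ∀ x ∈ s0, ∀ y ∈ s1, |m x y| ≤ 1) (hn : ∀ x ∈ s0, ∀ z ∈ s2, |n x z| ≤ 1) :
    Tst e τ s0 s1 s2 (fun x y z => D x y z * (m x y * n x z)) := by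
  intro α β a A b B ha hA hb hB h1 h2 h3 h4
  have hsq : ∀ s t : ℝ, |s| ≤ 1 → (s * t) ^ 2 ≤ t ^ 2 := fun s t hs => by
    rw [mul_pow]
    have h1 : s ^ 2 ≤ 1 := by rw [← sq_abs]; exact pow_le_one₀ (abs_nonneg _) hs
    calc s ^ 2 * t ^ 2 ≤ 1 * t ^ 2 := mul_le_mul_of_nonneg_right h1 (sq_nonneg _)
      _ = t ^ 2 := one_mul _
  have hab : ∀ s t D : ℝ, |s| ≤ 1 → |t| ≤ D → |s * t| ≤ D := fun s t D hs ht => by
    rw [abs_mul]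
    calc |s| * |t| ≤ 1 * |t| := mul_le_mul_of_nonneg_right hs (abs_nonneg _)
      _ ≤ D := by linarith
  have := h (fun x y => m x y * α x y) (fun x z => n x z * β x z) a A b B ha hA hb hB
    ((sum_le_sum fun x hx => sum_le_sum fun y hy => hsq _ _ (hm x hx y hy)).trans h1)
    (fun x hx y hy => hab _ _ _ (hm x hx y hy) (h2 x hx y hy))
    ((sum_le_sum fun x hx => sum_le_sum fun y hy => hsq _ _ (hn x hx y hy)).trans h3)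
    (fun x hx y hy => hab _ _ _ (hn x hx y hy) (h4 x hx y hy))
  refine le_trans (le_of_eq ?_) this
  congr 1
  refine sum_congr rfl fun x _ => sum_congr rfl fun y _ => sum_congr rfl fun z _ => ?_
  ring

/-! ### From finite sets to types -/

/-- uniform weight -/
def uw (s : Finset ℤ) : s → ℝ := fun _ => (s.card : ℝ)⁻¹

theorem uw_pos (s : Finset ℤ) : ∀ x, 0 < uw s x := fun x => by
  have : 0 < s.card := card_pos.mpr ⟨x.1, x.2⟩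
  unfold uw
  positivity

/-- extension by zero of a function on pairs -/
def ext (s t : Finset ℤ) (α : s × t → ℝ) (x y : ℤ) : ℝ :=
  if h : x ∈ s ∧ y ∈ t then α (⟨x, h.1⟩, ⟨y, h.2⟩) else 0

theorem ext_apply {s t : Finset ℤ} (α : s × t → ℝ) (x : s) (y : t) : ext s t α x y = α (x, y) := by
  unfold ext
  rw [dif_pos ⟨x.2, y.2⟩]

theorem Tst.type {e τ : ℝ} (h0 : 0 ≤ e) (h1 : e ≤ 1) {s0 s1 s2 : Finset ℤ} {D : ℤ → ℤ → ℤ → ℝ}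
    (hD : Tst e τ s0 s1 s2 D) (n0 : s0.Nonempty) (n1 : s1.Nonempty) (n2 : s2.Nonempty)
    (α : s0 × s1 → ℝ) (β : s0 × s2 → ℝ) :
    ∑ x0 : s0, ∑ x1 : s1, ∑ x2 : s2, uw s0 x0 * uw s1 x1 * uw s2 x2 *
      (D x0 x1 x2 * α (x0, x1) * β (x0, x2)) ≤
      τ * (pg (pw (uw s0) (uw s1)) (pw_pos (uw_pos s0) (uw_pos s1)) e h0 h1).N (fun x => α x ^ 2)
        * (pg (pw (uw s0) (uw s2)) (pw_pos (uw_pos s0) (uw_pos s2)) e h0 h1).N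
          (fun x => β x ^ 2) := by
  have p0 : (0:ℝ) < s0.card := by exact_mod_cast card_pos.mpr n0
  have p1 : (0:ℝ) < s1.card := by exact_mod_cast card_pos.mpr n1
  have p2 : (0:ℝ) < s2.card := by exact_mod_cast card_pos.mpr n2
  have hL : ∀ (t : Finset ℤ) (γ : s0 × t → ℝ), (0:ℝ) < t.card →
      ∑ x ∈ s0, ∑ y ∈ t, ext s0 t γ x y ^ 2 =
        (s0.card : ℝ) * t.card * L1 (pw (uw s0) (uw t)) (fun x => γ x ^ 2) := by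
    intro t γ ht
    unfold L1
    rw [Fintype.sum_prod_type, mul_sum, ← sum_coe_sort s0]
    refine sum_congr rfl fun x _ => ?_
    rw [mul_sum, ← sum_coe_sort t]
    refine sum_congr rfl fun y _ => ?_
    rw [ext_apply, abs_of_nonneg (sq_nonneg _)]
    unfold pw uw
    field_simp
  have hM : ∀ (t : Finset ℤ) (γ : s0 × t → ℝ), ∀ x ∈ s0, ∀ y ∈ t,
      |ext s0 t γ x y| ≤ √(Li (fun x => γ x ^ 2)) := by
    intro t γ x hx y hy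
    have h3 := le_Li (fun x => γ x ^ 2) (⟨x, hx⟩, ⟨y, hy⟩)
    rw [abs_of_nonneg (sq_nonneg _)] at h3
    have h4 := ext_apply γ ⟨x, hx⟩ ⟨y, hy⟩
    simp only at h4
    rw [h4]
    exact Real.abs_le_sqrt h3
  have hN : ∀ (t : Finset ℤ) (γ : s0 × t → ℝ),
      √(L1 (pw (uw s0) (uw t)) (fun x => γ x ^ 2)) ^ (1 - e) * √(Li (fun x => γ x ^ 2)) ^ e
      = (pg (pw (uw s0) (uw t)) (pw_pos (uw_pos s0) (uw_pos t)) e h0 h1).N (fun x => γ x ^ 2) := by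
    intro t γ
    change _ = L1 (pw (uw s0) (uw t)) (fun x => γ x ^ 2) ^ ((1 - e) / 2)
      * Li (fun x => γ x ^ 2) ^ (e / 2)
    have q1 := L1_nonneg (pw_pos (uw_pos s0) (uw_pos t)) (fun x => γ x ^ 2)
    have q2 := Li_nonneg (fun x : s0 × t => γ x ^ 2)
    rw [Real.sqrt_eq_rpow, Real.sqrt_eq_rpow, ← Real.rpow_mul q1, ← Real.rpow_mul q2]
    congr 2 <;> ring
  have q1 := L1_nonneg (pw_pos (uw_pos s0) (uw_pos s1)) (fun x => α x ^ 2)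
  have q2 := L1_nonneg (pw_pos (uw_pos s0) (uw_pos s2)) (fun x => β x ^ 2)
  have key := hD (ext s0 s1 α) (ext s0 s2 β) (√(L1 (pw (uw s0) (uw s1)) (fun x => α x ^ 2)))
    (√(Li (fun x => α x ^ 2))) (√(L1 (pw (uw s0) (uw s2)) (fun x => β x ^ 2)))
    (√(Li (fun x => β x ^ 2))) (Real.sqrt_nonneg _) (Real.sqrt_nonneg _) (Real.sqrt_nonneg _)
    (Real.sqrt_nonneg _) (by rw [hL s1 α p1, Real.sq_sqrt q1]) (hM s1 α)
    (by rw [hL s2 β p2, Real.sq_sqrt q2]) (hM s2 β)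
  rw [hN s1 α, hN s2 β] at key
  have e1 : ∑ x0 : s0, ∑ x1 : s1, ∑ x2 : s2, uw s0 x0 * uw s1 x1 * uw s2 x2 *
      (D x0 x1 x2 * α (x0, x1) * β (x0, x2)) = ((s0.card : ℝ) * s1.card * s2.card)⁻¹ *
      ∑ x ∈ s0, ∑ y ∈ s1, ∑ z ∈ s2, D x y z * ext s0 s1 α x y * ext s0 s2 β x z := by
    rw [mul_sum, ← sum_coe_sort s0]
    refine sum_congr rfl fun x0 _ => ?_
    rw [mul_sum, ← sum_coe_sort s1]
    refine sum_congr rfl fun x1 _ => ?_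
    rw [mul_sum, ← sum_coe_sort s2]
    refine sum_congr rfl fun x2 _ => ?_
    rw [ext_apply, ext_apply]
    unfold uw
    rw [mul_inv, mul_inv]
  rw [e1, inv_mul_le_iff₀ (by positivity)]
  exact (le_abs_self _).trans key

/-- **Negligible parts at a node**, finite sets. -/
theorem err_fin {e τ : ℝ} (h0 : 0 ≤ e) (h1 : e ≤ 1) (hτ : 0 ≤ τ) {s0 s1 s2 s3 : Finset ℤ}
    (n0 : s0.Nonempty) (n1 : s1.Nonempty) (n2 : s2.Nonempty) (n3 : s3.Nonempty)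
    {D : ℤ → ℤ → ℤ → ℝ} (hD : Tst e τ s0 s2 s3 D) {P Q : ℤ → ℤ → ℤ → ℝ} {eP eQ mP mQ : ℝ}
    (hmP : 0 ≤ mP) (hmQ : 0 ≤ mQ)
    (hP : ∑ x0 ∈ s0, ∑ x1 ∈ s1, ∑ x2 ∈ s2, P x0 x1 x2 ^ 2 ≤ (s0.card : ℝ) * s1.card * s2.card * eP)
    (hQ : ∑ x0 ∈ s0, ∑ x1 ∈ s1, ∑ x3 ∈ s3, Q x0 x1 x3 ^ 2 ≤ (s0.card : ℝ) * s1.card * s3.card * eQ)
    (hP' : ∀ x0 ∈ s0, ∀ x2 ∈ s2, ∑ x1 ∈ s1, P x0 x1 x2 ^ 2 ≤ s1.card * mP)
    (hQ' : ∀ x0 ∈ s0, ∀ x3 ∈ s3, ∑ x1 ∈ s1, Q x0 x1 x3 ^ 2 ≤ s1.card * mQ) :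
    ∑ x0 ∈ s0, |∑ x1 ∈ s1, ∑ x2 ∈ s2, ∑ x3 ∈ s3, P x0 x1 x2 * D x0 x2 x3 * Q x0 x1 x3| ≤
      (s0.card : ℝ) * s1.card * s2.card * s3.card *
        (96 * τ * (eP * eQ) ^ ((1 - e) / 2) * (mP * mQ) ^ (e / 2)) := by
  have p0 : (0:ℝ) < s0.card := by exact_mod_cast card_pos.mpr n0
  have p1 : (0:ℝ) < s1.card := by exact_mod_cast card_pos.mpr n1
  have p2 : (0:ℝ) < s2.card := by exact_mod_cast card_pos.mpr n2
  have p3 : (0:ℝ) < s3.card := by exact_mod_cast card_pos.mpr n3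
  have key := node_err (uw_pos s0) (uw_pos s1) (uw_pos s2) (uw_pos s3)
    (fun x0 x2 x3 => D x0 x2 x3) h0 h1 hτ (fun α β => hD.type h0 h1 n0 n2 n3 α β)
    (fun x0 x1 x2 => P x0 x1 x2) (fun x0 x1 x3 => Q x0 x1 x3) (eA := eP) (eC := eQ) hmP hmQ
    (by
      have : ∑ x0 : s0, ∑ x1 : s1, ∑ x2 : s2, uw s0 x0 * uw s1 x1 * uw s2 x2 * P x0 x1 x2 ^ 2
          = ((s0.card : ℝ) * s1.card * s2.card)⁻¹ *
            ∑ x0 ∈ s0, ∑ x1 ∈ s1, ∑ x2 ∈ s2, P x0 x1 x2 ^ 2 := by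
        rw [mul_sum, ← sum_coe_sort s0]
        refine sum_congr rfl fun x0 _ => ?_
        rw [mul_sum, ← sum_coe_sort s1]
        refine sum_congr rfl fun x1 _ => ?_
        rw [mul_sum, ← sum_coe_sort s2]
        refine sum_congr rfl fun x2 _ => ?_
        unfold uw
        rw [mul_inv, mul_inv]
      rw [this, inv_mul_le_iff₀ (by positivity)]
      exact hP)
    (by
      have : ∑ x0 : s0, ∑ x1 : s1, ∑ x2 : s3, uw s0 x0 * uw s1 x1 * uw s3 x2 * Q x0 x1 x2 ^ 2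
          = ((s0.card : ℝ) * s1.card * s3.card)⁻¹ *
            ∑ x0 ∈ s0, ∑ x1 ∈ s1, ∑ x2 ∈ s3, Q x0 x1 x2 ^ 2 := by
        rw [mul_sum, ← sum_coe_sort s0]
        refine sum_congr rfl fun x0 _ => ?_
        rw [mul_sum, ← sum_coe_sort s1]
        refine sum_congr rfl fun x1 _ => ?_
        rw [mul_sum, ← sum_coe_sort s3]
        refine sum_congr rfl fun x2 _ => ?_
        unfold uw
        rw [mul_inv, mul_inv]
      rw [this, inv_mul_le_iff₀ (by positivity)]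
      exact hQ)
    (by
      intro x0 x2
      have : ∑ x1 : s1, uw s1 x1 * P x0 x1 x2 ^ 2 = (s1.card : ℝ)⁻¹ * ∑ x1 ∈ s1, P x0 x1 x2 ^ 2 := by
        rw [mul_sum, ← sum_coe_sort s1]
        rfl
      rw [this, inv_mul_le_iff₀ p1]
      exact hP' _ x0.2 _ x2.2)
    (by
      intro x0 x2
      have : ∑ x1 : s1, uw s1 x1 * Q x0 x1 x2 ^ 2 = (s1.card : ℝ)⁻¹ * ∑ x1 ∈ s1, Q x0 x1 x2 ^ 2 := by
        rw [mul_sum, ← sum_coe_sort s1]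
        rfl
      rw [this, inv_mul_le_iff₀ p1]
      exact hQ' _ x0.2 _ x2.2)
  have e1 : ∑ x0 : s0, uw s0 x0 * |∑ x1 : s1, ∑ x2 : s2, ∑ x3 : s3, uw s1 x1 * uw s2 x2 * uw s3 x3 *
      (P x0 x1 x2 * D x0 x2 x3 * Q x0 x1 x3)| = ((s0.card : ℝ) * s1.card * s2.card * s3.card)⁻¹ *
      ∑ x0 ∈ s0, |∑ x1 ∈ s1, ∑ x2 ∈ s2, ∑ x3 ∈ s3, P x0 x1 x2 * D x0 x2 x3 * Q x0 x1 x3| := by
    rw [mul_sum, ← sum_coe_sort s0]
    refine sum_congr rfl fun x0 _ => ?_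
    have : ∑ x1 : s1, ∑ x2 : s2, ∑ x3 : s3, uw s1 x1 * uw s2 x2 * uw s3 x3 *
        (P x0 x1 x2 * D x0 x2 x3 * Q x0 x1 x3) = ((s1.card : ℝ) * s2.card * s3.card)⁻¹ *
        ∑ x1 ∈ s1, ∑ x2 ∈ s2, ∑ x3 ∈ s3, P x0 x1 x2 * D x0 x2 x3 * Q x0 x1 x3 := by
      rw [mul_sum, ← sum_coe_sort s1]
      refine sum_congr rfl fun x1 _ => ?_
      rw [mul_sum, ← sum_coe_sort s2]
      refine sum_congr rfl fun x2 _ => ?_
      rw [mul_sum, ← sum_coe_sort s3]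
      refine sum_congr rfl fun x3 _ => ?_
      unfold uw
      rw [mul_inv, mul_inv]
    rw [this, abs_mul, abs_of_pos (a := ((s1.card : ℝ) * s2.card * s3.card)⁻¹) (by positivity),
      ← mul_assoc]
    congr 1
    unfold uw
    rw [mul_inv, mul_inv, mul_inv, mul_inv, mul_inv]
    ring
  rw [e1, inv_mul_le_iff₀ (by positivity)] at key
  exact key

/-- the inclusion of pairs -/
def emb (s t : Finset ℤ) : s × t ↪ ℤ × ℤ :=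
  ⟨fun z => ((z.1 : ℤ), (z.2 : ℤ)), fun z w hzw => by
    have h1 : (z.1 : ℤ) = w.1 := congrArg Prod.fst hzw
    have h2 : (z.2 : ℤ) = w.2 := congrArg Prod.snd hzw
    exact Prod.ext (Subtype.ext h1) (Subtype.ext h2)⟩

theorem card_bad {s t : Finset ℤ} (ns : s.Nonempty) (nt : t.Nonempty) (B : Finset (s × t)) {r : ℝ}
    (h : ∑ x ∈ B, pw (uw s) (uw t) x ≤ 2 * r) :
    ((B.map (emb s t)).card : ℝ) ≤ 2 * r * (s.card * t.card) := by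
  have p0 : (0:ℝ) < s.card := by exact_mod_cast card_pos.mpr ns
  have p1 : (0:ℝ) < t.card := by exact_mod_cast card_pos.mpr nt
  rw [card_map]
  have h1 : ∑ x ∈ B, pw (uw s) (uw t) x = B.card * ((s.card : ℝ)⁻¹ * (t.card : ℝ)⁻¹) := by
    rw [show (B.card : ℝ) * ((s.card : ℝ)⁻¹ * (t.card : ℝ)⁻¹)
      = B.card • ((s.card : ℝ)⁻¹ * (t.card : ℝ)⁻¹) by rw [nsmul_eq_mul], ← sum_const]
    rfl
  rw [h1] at h
  have h2 : (B.card : ℝ) = B.card * ((s.card : ℝ)⁻¹ * (t.card : ℝ)⁻¹) * (s.card * t.card) := by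
    rw [mul_assoc, ← mul_inv, inv_mul_cancel₀ (mul_pos p0 p1).ne', mul_one]
  rw [h2]
  exact mul_le_mul_of_nonneg_right h (mul_pos p0 p1).le

/-- **Caps at a node**, finite sets. -/
theorem caps_fin {e τ r s : ℝ} (h0 : 0 < e) (h1 : e ≤ 1) (hτ : 0 ≤ τ) (hr : 0 < r) (hs : 0 < s)
    {s0 s1 s2 : Finset ℤ} (n0 : s0.Nonempty) (n1 : s1.Nonempty) (n2 : s2.Nonempty)
    {D : ℤ → ℤ → ℤ → ℝ} (hD : Tst e τ s0 s1 s2 D) :
    ∃ B₁ B₂ : Finset (ℤ × ℤ), B₁ ⊆ s0 ×ˢ s1 ∧ B₂ ⊆ s0 ×ˢ s2 ∧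
      (B₁.card : ℝ) ≤ 2 * r * (s0.card * s1.card) ∧ (B₂.card : ℝ) ≤ 2 * s * (s0.card * s2.card) ∧
      ∀ x0 ∈ s0, ∀ α β : ℤ → ℝ, (∀ x1 ∈ s1, (x0, x1) ∈ B₁ → α x1 = 0) →
        (∀ x2 ∈ s2, (x0, x2) ∈ B₂ → β x2 = 0) →
        |∑ x1 ∈ s1, ∑ x2 ∈ s2, D x0 x1 x2 * α x1 * β x2| ≤
          96 * τ * (r * s) ^ (-(e / 2)) * (√(s1.card) * √(s2.card)) *
            (√(∑ x1 ∈ s1, α x1 ^ 2) * √(∑ x2 ∈ s2, β x2 ^ 2)) := by
  have p1 : (0:ℝ) < s1.card := by exact_mod_cast card_pos.mpr n1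
  have p2 : (0:ℝ) < s2.card := by exact_mod_cast card_pos.mpr n2
  obtain ⟨B₁, B₂, hB1, hB2, hB⟩ := node_caps (uw_pos s0) (uw_pos s1) (uw_pos s2)
    (fun x0 x1 x2 => D x0 x1 x2) h0 h1 hτ hr hs (fun α β => hD.type h0.le h1 n0 n1 n2 α β)
  have hone : ∀ x0 ∈ s0, ∀ α β : ℤ → ℝ,
      (∀ x1 : s1, ∀ h : x0 ∈ s0, ((⟨x0, h⟩ : s0), x1) ∈ B₁ → α x1 = 0) →
      (∀ x2 : s2, ∀ h : x0 ∈ s0, ((⟨x0, h⟩ : s0), x2) ∈ B₂ → β x2 = 0) →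
      ∑ x1 ∈ s1, ∑ x2 ∈ s2, D x0 x1 x2 * α x1 * β x2 ≤
          96 * τ * (r * s) ^ (-(e / 2)) * (√(s1.card) * √(s2.card)) *
            (√(∑ x1 ∈ s1, α x1 ^ 2) * √(∑ x2 ∈ s2, β x2 ^ 2)) := by
    intro x0 hx0 α β hα hβ
    have key := hB ⟨x0, hx0⟩ (fun x => α x) (fun x => β x) (fun x1 h => hα x1 hx0 h)
      (fun x2 h => hβ x2 hx0 h)
    have e1 : ∑ x1 : s1, ∑ x2 : s2, uw s1 x1 * uw s2 x2 * (D x0 x1 x2 * α x1 * β x2) =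
        ((s1.card : ℝ) * s2.card)⁻¹ * ∑ x1 ∈ s1, ∑ x2 ∈ s2, D x0 x1 x2 * α x1 * β x2 := by
      rw [mul_sum, ← sum_coe_sort s1]
      refine sum_congr rfl fun x1 _ => ?_
      rw [mul_sum, ← sum_coe_sort s2]
      refine sum_congr rfl fun x2 _ => ?_
      unfold uw
      rw [mul_inv]
    have e2 : ∀ (t : Finset ℤ) (γ : ℤ → ℝ), (0:ℝ) < t.card →
        L2 (uw t) (fun x => γ x) = (√(t.card))⁻¹ * √(∑ x ∈ t, γ x ^ 2) := by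
      intro t γ ht
      unfold L2 uw
      rw [← mul_sum, sum_coe_sort t (fun x => γ x ^ 2), Real.sqrt_mul (by positivity), Real.sqrt_inv]
    rw [e1, e2 s1 α p1, e2 s2 β p2, inv_mul_le_iff₀ (by positivity)] at key
    refine key.trans (le_of_eq ?_)
    have r3 : ∀ t : ℝ, 0 < t → t * (√t)⁻¹ = √t := by
      intro t ht
      have q : √t ≠ 0 := (Real.sqrt_pos.2 ht).ne'
      rw [← div_eq_mul_inv, div_eq_iff q, Real.mul_self_sqrt ht.le]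
    calc _ = 96 * τ * (r * s) ^ (-(e / 2)) * (((s1.card : ℝ) * (√(s1.card : ℝ))⁻¹) *
          ((s2.card : ℝ) * (√(s2.card : ℝ))⁻¹)) *
            (√(∑ x1 ∈ s1, α x1 ^ 2) * √(∑ x2 ∈ s2, β x2 ^ 2)) := by ring
      _ = _ := by rw [r3 _ p1, r3 _ p2]
  refine ⟨B₁.map (emb s0 s1), B₂.map (emb s0 s2), ?_, ?_, card_bad n0 n1 B₁ hB1,
    card_bad n0 n2 B₂ hB2, ?_⟩
  · intro z hz
    rw [mem_map] at hz
    obtain ⟨w, _, rfl⟩ := hz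
    exact mem_product.2 ⟨w.1.2, w.2.2⟩
  · intro z hz
    rw [mem_map] at hz
    obtain ⟨w, _, rfl⟩ := hz
    exact mem_product.2 ⟨w.1.2, w.2.2⟩
  · intro x0 hx0 α β hα hβ
    have ha : ∀ x1 : s1, ∀ h : x0 ∈ s0, ((⟨x0, h⟩ : s0), x1) ∈ B₁ → α x1 = 0 :=
      fun x1 h hm => hα x1 x1.2 (mem_map.2 ⟨_, hm, rfl⟩)
    have hb : ∀ x1 : s2, ∀ h : x0 ∈ s0, ((⟨x0, h⟩ : s0), x1) ∈ B₂ → β x1 = 0 :=
      fun x1 h hm => hβ x1 x1.2 (mem_map.2 ⟨_, hm, rfl⟩)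
    rw [abs_le]
    constructor
    · have h3 := hone x0 hx0 (fun x => - α x) β (fun x1 h hm => by rw [ha x1 h hm, neg_zero]) hb
      simp only [mul_neg, neg_mul, sum_neg_distrib, neg_sq] at h3
      linarith
    · exact hone x0 hx0 α β ha hb

end

end Vale.Agent.P141.PL.H319
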