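import Vale.Agent.P141.PL.H319.Fin

/-! # The six error terms at a node -/

namespace Vale.Agent.P141.PL.H319

open Finset Vale.Agent.P141.H319 Vale.Agent.P141.PL.H317

noncomputable section

open Classical in
/-- indicator of a set of pairs -/
def ind (U : Finset (ℤ × ℤ)) (x y : ℤ) : ℝ := if (x, y) ∈ U then 1 else 0

open Classical in
/-- indicator of the complement -/
def cnd (U : Finset (ℤ × ℤ)) (x y : ℤ) : ℝ := if (x, y) ∈ U then 0 else 1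

theorem ind_add_cnd (U : Finset (ℤ × ℤ)) (x y : ℤ) : ind U x y + cnd U x y = 1 := by
  unfold ind cnd; split_ifs <;> norm_num

theorem ind_sq (U : Finset (ℤ × ℤ)) (x y : ℤ) : ind U x y ^ 2 = ind U x y := by
  unfold ind; split_ifs <;> norm_num

theorem ind_mul_self (U : Finset (ℤ × ℤ)) (x y : ℤ) : ind U x y * ind U x y = ind U x y := by
  unfold ind; split_ifs <;> norm_num

theorem ind_nonneg (U : Finset (ℤ × ℤ)) (x y : ℤ) : 0 ≤ ind U x y := by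
  unfold ind; split_ifs <;> norm_num

theorem abs_cnd_le (U : Finset (ℤ × ℤ)) (x y : ℤ) : |cnd U x y| ≤ 1 := by
  unfold cnd; split_ifs <;> norm_num

theorem cnd_sq_le (U : Finset (ℤ × ℤ)) (x y : ℤ) : cnd U x y ^ 2 ≤ 1 := by
  unfold cnd; split_ifs <;> norm_num

theorem sum_ind {U : Finset (ℤ × ℤ)} {s t : Finset ℤ} (hU : U ⊆ s ×ˢ t) :
    ∑ x ∈ s, ∑ y ∈ t, ind U x y = U.card := by
  classical
  rw [← sum_product' s t (fun x y => ind U x y)]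
  unfold ind
  simp only [Prod.mk.eta]
  rw [sum_ite_mem, inter_eq_right.2 hU]
  simp

theorem sq_mul_le {s t : ℝ} (h : |s| ≤ 1) : (s * t) ^ 2 ≤ t ^ 2 := by
  rw [mul_pow]
  have h1 : s ^ 2 ≤ 1 := by rw [← sq_abs]; exact pow_le_one₀ (abs_nonneg _) h
  calc s ^ 2 * t ^ 2 ≤ 1 * t ^ 2 := mul_le_mul_of_nonneg_right h1 (sq_nonneg _)
    _ = t ^ 2 := one_mul _

/-- one error term: the part of `P` on the set `U` of pairs `(x, v)` -/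
theorem part {e τ u eP mP mQ : ℝ} (h0 : 0 ≤ e) (h1 : e ≤ 1) (hτ : 0 ≤ τ)
    {s0 sv sy sz : Finset ℤ} (n0 : s0.Nonempty) (nv : sv.Nonempty) (ny : sy.Nonempty)
    (nz : sz.Nonempty) {D : ℤ → ℤ → ℤ → ℝ} (hD : Tst e τ s0 sy sz D) {P Q : ℤ → ℤ → ℤ → ℝ}
    {U : Finset (ℤ × ℤ)} (hU : U ⊆ s0 ×ˢ sv) (hu : (U.card : ℝ) ≤ u * (s0.card * sv.card))
    (hmP : 0 ≤ mP) (hmQ : 0 ≤ mQ)
    (hP : ∑ x0 ∈ s0, ∑ v ∈ sv, ∑ y ∈ sy, P x0 v y ^ 2 ≤ (s0.card : ℝ) * sv.card * sy.card * eP)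
    (hP' : ∀ x0 ∈ s0, ∀ y ∈ sy, ∑ v ∈ sv, P x0 v y ^ 2 ≤ sv.card * mP)
    (hQ : ∀ x0 ∈ s0, ∀ v ∈ sv, ∑ z ∈ sz, Q x0 v z ^ 2 ≤ sz.card * mQ)
    (hQ' : ∀ x0 ∈ s0, ∀ z ∈ sz, ∑ v ∈ sv, Q x0 v z ^ 2 ≤ sv.card * mQ) :
    ∑ x0 ∈ s0, |∑ v ∈ sv, ∑ y ∈ sy, ∑ z ∈ sz, P x0 v y * D x0 y z * (ind U x0 v * Q x0 v z)| ≤
      (s0.card : ℝ) * sv.card * sy.card * sz.card *
        (96 * τ * (eP * (u * mQ)) ^ ((1 - e) / 2) * (mP * mQ) ^ (e / 2)) := by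
  refine err_fin h0 h1 hτ n0 nv ny nz hD hmP hmQ hP ?_ hP' ?_
  · have e1 : ∀ x0 ∈ s0, ∀ v ∈ sv, ∑ z ∈ sz, (ind U x0 v * Q x0 v z) ^ 2 ≤
        ind U x0 v * (sz.card * mQ) := by
      intro x0 hx0 v hv
      have : ∀ z, (ind U x0 v * Q x0 v z) ^ 2 = ind U x0 v * Q x0 v z ^ 2 := by
        intro z; rw [mul_pow, ind_sq]
      simp_rw [this, ← mul_sum]
      exact mul_le_mul_of_nonneg_left (hQ x0 hx0 v hv) (ind_nonneg _ _ _)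
    calc ∑ x0 ∈ s0, ∑ v ∈ sv, ∑ z ∈ sz, (ind U x0 v * Q x0 v z) ^ 2
        ≤ ∑ x0 ∈ s0, ∑ v ∈ sv, ind U x0 v * (sz.card * mQ) :=
          sum_le_sum fun x0 hx0 => sum_le_sum fun v hv => e1 x0 hx0 v hv
      _ = U.card * (sz.card * mQ) := by
          rw [← sum_ind hU, sum_mul]
          refine sum_congr rfl fun x0 _ => ?_
          rw [sum_mul]
      _ ≤ u * (s0.card * sv.card) * (sz.card * mQ) := by
          exact mul_le_mul_of_nonneg_right hu (by positivity)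
      _ = _ := by ring
  · intro x0 hx0 z hz
    refine le_trans (sum_le_sum fun v _ => ?_) (hQ' x0 hx0 z hz)
    refine sq_mul_le ?_
    unfold ind; split_ifs <;> norm_num

/-- the same with the set on the side of `P` -/
theorem part' {e τ u eQ mP mQ : ℝ} (h0 : 0 ≤ e) (h1 : e ≤ 1) (hτ : 0 ≤ τ)
    {s0 sv sy sz : Finset ℤ} (n0 : s0.Nonempty) (nv : sv.Nonempty) (ny : sy.Nonempty)
    (nz : sz.Nonempty) {D : ℤ → ℤ → ℤ → ℝ} (hD : Tst e τ s0 sy sz D) {P Q : ℤ → ℤ → ℤ → ℝ}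
    {U : Finset (ℤ × ℤ)} (hU : U ⊆ s0 ×ˢ sv) (hu : (U.card : ℝ) ≤ u * (s0.card * sv.card))
    (hmP : 0 ≤ mP) (hmQ : 0 ≤ mQ)
    (hQ : ∑ x0 ∈ s0, ∑ v ∈ sv, ∑ z ∈ sz, Q x0 v z ^ 2 ≤ (s0.card : ℝ) * sv.card * sz.card * eQ)
    (hQ' : ∀ x0 ∈ s0, ∀ z ∈ sz, ∑ v ∈ sv, Q x0 v z ^ 2 ≤ sv.card * mQ)
    (hP : ∀ x0 ∈ s0, ∀ v ∈ sv, ∑ y ∈ sy, P x0 v y ^ 2 ≤ sy.card * mP)
    (hP' : ∀ x0 ∈ s0, ∀ y ∈ sy, ∑ v ∈ sv, P x0 v y ^ 2 ≤ sv.card * mP) :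
    ∑ x0 ∈ s0, |∑ v ∈ sv, ∑ y ∈ sy, ∑ z ∈ sz, (ind U x0 v * P x0 v y) * D x0 y z * Q x0 v z| ≤
      (s0.card : ℝ) * sv.card * sy.card * sz.card *
        (96 * τ * (eQ * (u * mP)) ^ ((1 - e) / 2) * (mQ * mP) ^ (e / 2)) := by
  rw [mul_comm eQ, mul_comm mQ]
  refine err_fin h0 h1 hτ n0 nv ny nz hD hmP hmQ ?_ hQ ?_ hQ'
  · have e1 : ∀ x0 ∈ s0, ∀ v ∈ sv, ∑ z ∈ sy, (ind U x0 v * P x0 v z) ^ 2 ≤
        ind U x0 v * (sy.card * mP) := by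
      intro x0 hx0 v hv
      have : ∀ z, (ind U x0 v * P x0 v z) ^ 2 = ind U x0 v * P x0 v z ^ 2 := by
        intro z; rw [mul_pow, ind_sq]
      simp_rw [this, ← mul_sum]
      exact mul_le_mul_of_nonneg_left (hP x0 hx0 v hv) (ind_nonneg _ _ _)
    calc ∑ x0 ∈ s0, ∑ v ∈ sv, ∑ z ∈ sy, (ind U x0 v * P x0 v z) ^ 2
        ≤ ∑ x0 ∈ s0, ∑ v ∈ sv, ind U x0 v * (sy.card * mP) :=
          sum_le_sum fun x0 hx0 => sum_le_sum fun v hv => e1 x0 hx0 v hv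
      _ = U.card * (sy.card * mP) := by
          rw [← sum_ind hU, sum_mul]
          refine sum_congr rfl fun x0 _ => ?_
          rw [sum_mul]
      _ ≤ u * (s0.card * sv.card) * (sy.card * mP) := by
          exact mul_le_mul_of_nonneg_right hu (by positivity)
      _ = _ := by ring
  · intro x0 hx0 z hz
    refine le_trans (sum_le_sum fun v _ => ?_) (hP' x0 hx0 z hz)
    refine sq_mul_le ?_
    unfold ind; split_ifs <;> norm_num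

/-- hypotheses on a matrix `A x0 y z` at a node -/
structure Mat (e τ en m : ℝ) (s0 sy sz : Finset ℤ) (A : ℤ → ℤ → ℤ → ℝ) : Prop where
  tst : Tst e τ s0 sy sz A
  tau : 0 ≤ τ
  m0 : 0 ≤ m
  en : ∑ x0 ∈ s0, ∑ y ∈ sy, ∑ z ∈ sz, A x0 y z ^ 2 ≤ (s0.card : ℝ) * sy.card * sz.card * en
  ly : ∀ x0 ∈ s0, ∀ z ∈ sz, ∑ y ∈ sy, A x0 y z ^ 2 ≤ sy.card * m
  lz : ∀ x0 ∈ s0, ∀ y ∈ sy, ∑ z ∈ sz, A x0 y z ^ 2 ≤ sz.card * m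

/-- stability under cut-offs -/
theorem Mat.mul {e τ en m : ℝ} {s0 sy sz : Finset ℤ} {A : ℤ → ℤ → ℤ → ℝ}
    (h : Mat e τ en m s0 sy sz A) {f g : ℤ → ℤ → ℝ} (hf : ∀ x y, |f x y| ≤ 1)
    (hg : ∀ x z, |g x z| ≤ 1) : Mat e τ en m s0 sy sz (fun x y z => A x y z * (f x y * g x z)) := by
  have hfg : ∀ x y z, (A x y z * (f x y * g x z)) ^ 2 ≤ A x y z ^ 2 := by
    intro x y z
    rw [mul_comm]
    refine sq_mul_le ?_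
    rw [abs_mul]
    exact mul_le_one₀ (hf _ _) (abs_nonneg _) (hg _ _)
  exact
    { tst := h.tst.mul (fun x _ y _ => hf x y) (fun x _ y _ => hg x y)
      tau := h.tau
      m0 := h.m0
      en := (sum_le_sum fun x _ => sum_le_sum fun y _ => sum_le_sum fun z _ => hfg x y z).trans h.en
      ly := fun x hx z hz => (sum_le_sum fun y _ => hfg x y z).trans (h.ly x hx z hz)
      lz := fun x hx y hy => (sum_le_sum fun z _ => hfg x y z).trans (h.lz x hx y hy) }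

theorem Tst.swap {e τ : ℝ} {s0 sy sz : Finset ℤ} {A : ℤ → ℤ → ℤ → ℝ} (h : Tst e τ s0 sy sz A) :
    Tst e τ s0 sz sy (fun x y z => A x z y) := by
  intro α β a A' b B ha hA hb hB h1 h2 h3 h4
  have := h β α b B a A' hb hB ha hA h3 h4 h1 h2
  refine le_trans (le_of_eq ?_) (this.trans (le_of_eq ?_))
  · congr 1
    refine sum_congr rfl fun x _ => ?_
    rw [sum_comm]
    refine sum_congr rfl fun y _ => sum_congr rfl fun z _ => ?_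
    ring
  · ring

theorem Mat.swap {e τ en m : ℝ} {s0 sy sz : Finset ℤ} {A : ℤ → ℤ → ℤ → ℝ}
    (h : Mat e τ en m s0 sy sz A) : Mat e τ en m s0 sz sy (fun x y z => A x z y) where
  tst := h.tst.swap
  tau := h.tau
  m0 := h.m0
  en := by
    refine le_trans (le_of_eq ?_) (h.en.trans (le_of_eq ?_))
    · exact sum_congr rfl fun x _ => sum_comm
    · ring
  ly := h.lz
  lz := h.ly

/-- a small set of pairs -/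
structure Sml (u : ℝ) (s0 s1 : Finset ℤ) (U : Finset (ℤ × ℤ)) : Prop where
  sub : U ⊆ s0 ×ˢ s1
  card : (U.card : ℝ) ≤ u * (s0.card * s1.card)

/-- the error bound: `D` tested, `P` carries the bad set, `Q` is small on it -/
def eb (e τD eP u mP mQ : ℝ) : ℝ :=
  96 * τD * (eP * (u * mQ)) ^ ((1 - e) / 2) * (mP * mQ) ^ (e / 2)

/-- **The six error terms at a node.** -/
theorem node_total {e τA eA mA τB eB mB τC eC mC a1 a2 b2 b3 c1 c3 : ℝ} (h0 : 0 ≤ e) (h1 : e ≤ 1)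
    {s0 s1 s2 s3 : Finset ℤ} (n0 : s0.Nonempty) (n1 : s1.Nonempty) (n2 : s2.Nonempty)
    (n3 : s3.Nonempty) {A B C : ℤ → ℤ → ℤ → ℝ} (hA : Mat e τA eA mA s0 s1 s2 A)
    (hB : Mat e τB eB mB s0 s2 s3 B) (hC : Mat e τC eC mC s0 s1 s3 C)
    {UA1 UA2 UB2 UB3 UC1 UC3 : Finset (ℤ × ℤ)} (kA1 : Sml a1 s0 s1 UA1) (kA2 : Sml a2 s0 s2 UA2)
    (kB2 : Sml b2 s0 s2 UB2) (kB3 : Sml b3 s0 s3 UB3) (kC1 : Sml c1 s0 s1 UC1)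
    (kC3 : Sml c3 s0 s3 UC3) {g1 g2 g3 : ℤ → ℝ} (hg1 : ∀ x, |g1 x| ≤ 1) (hg2 : ∀ x, |g2 x| ≤ 1)
    (hg3 : ∀ x, |g3 x| ≤ 1) :
    ∑ x0 ∈ s0, |(∑ x1 ∈ s1, ∑ x2 ∈ s2, ∑ x3 ∈ s3, g1 x1 * g2 x2 * g3 x3 *
        (A x0 x1 x2 * B x0 x2 x3 * C x0 x1 x3)) -
      ∑ x1 ∈ s1, ∑ x2 ∈ s2, ∑ x3 ∈ s3, g1 x1 * g2 x2 * g3 x3 *
        ((A x0 x1 x2 * (cnd UA1 x0 x1 * cnd UA2 x0 x2)) *
          (B x0 x2 x3 * (cnd UB2 x0 x2 * cnd UB3 x0 x3)) *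
          (C x0 x1 x3 * (cnd UC1 x0 x1 * cnd UC3 x0 x3)))| ≤
      (s0.card : ℝ) * s1.card * s2.card * s3.card *
        (eb e τB eA a1 mA mC + eb e τC eA a2 mA mB + eb e τC eB b2 mB mA + eb e τA eB b3 mB mC +
          eb e τB eC c1 mC mA + eb e τA eC c3 mC mB) := by
  set At : ℤ → ℤ → ℤ → ℝ := fun x0 x1 x2 => A x0 x1 x2 * (cnd UA1 x0 x1 * cnd UA2 x0 x2) with hAt
  set Bt : ℤ → ℤ → ℤ → ℝ := fun x0 x2 x3 => B x0 x2 x3 * (cnd UB2 x0 x2 * cnd UB3 x0 x3) with hBt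
  set Ct : ℤ → ℤ → ℤ → ℝ := fun x0 x1 x3 => C x0 x1 x3 * (cnd UC1 x0 x1 * cnd UC3 x0 x3) with hCt
  have mAt : Mat e τA eA mA s0 s1 s2 At := hA.mul (abs_cnd_le _) (abs_cnd_le _)
  have mBt : Mat e τB eB mB s0 s2 s3 Bt := hB.mul (abs_cnd_le _) (abs_cnd_le _)
  have hgg : ∀ {f g : ℤ → ℝ}, (∀ x, |f x| ≤ 1) → (∀ x, |g x| ≤ 1) → ∀ x y, |f x * g y| ≤ 1 :=
    fun hf hg x y => by rw [abs_mul]; exact mul_le_one₀ (hf _) (abs_nonneg _) (hg _)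
  have hone : ∀ x y : ℤ, |(1:ℝ)| ≤ 1 := fun _ _ => by simp
  have mAc : Mat e τA eA mA s0 s1 s2 (fun x0 x1 x2 => A x0 x1 x2 * (cnd UA1 x0 x1 * 1)) :=
    hA.mul (f := cnd UA1) (g := fun _ _ => 1) (abs_cnd_le _) hone
  have mBc : Mat e τB eB mB s0 s2 s3 (fun x0 x2 x3 => B x0 x2 x3 * (cnd UB2 x0 x2 * 1)) :=
    hB.mul (f := cnd UB2) (g := fun _ _ => 1) (abs_cnd_le _) hone
  have mCc : Mat e τC eC mC s0 s1 s3 (fun x0 x1 x3 => C x0 x1 x3 * (cnd UC1 x0 x1 * 1)) :=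
    hC.mul (f := cnd UC1) (g := fun _ _ => 1) (abs_cnd_le _) hone
  -- generic consequences of `Mat` for signed matrices
  have gen : ∀ {τ en m : ℝ} {sy sz : Finset ℤ} {F : ℤ → ℤ → ℤ → ℝ} (_ : Mat e τ en m s0 sy sz F)
      {c : ℤ → ℤ → ℝ} (_ : ∀ y z, |c y z| ≤ 1),
      (∑ x0 ∈ s0, ∑ y ∈ sy, ∑ z ∈ sz, (c y z * F x0 y z) ^ 2 ≤
        (s0.card : ℝ) * sy.card * sz.card * en) ∧
      (∀ x0 ∈ s0, ∀ z ∈ sz, ∑ y ∈ sy, (c y z * F x0 y z) ^ 2 ≤ sy.card * m) ∧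
      (∀ x0 ∈ s0, ∀ y ∈ sy, ∑ z ∈ sz, (c y z * F x0 y z) ^ 2 ≤ sz.card * m) := by
    intro τ en m sy sz F hF c hc
    exact ⟨(sum_le_sum fun x _ => sum_le_sum fun y _ => sum_le_sum fun z _ =>
        sq_mul_le (hc _ _)).trans hF.en,
      fun x0 hx0 z hz => (sum_le_sum fun y _ => sq_mul_le (hc _ _)).trans (hF.ly x0 hx0 z hz),
      fun x0 hx0 y hy => (sum_le_sum fun z _ => sq_mul_le (hc _ _)).trans (hF.lz x0 hx0 y hy)⟩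
  -- term 1
  obtain ⟨p11, p12, p13⟩ := gen hA (c := fun x1 x2 => g1 x1 * g2 x2) (hgg hg1 hg2)
  obtain ⟨q11, q12, q13⟩ := gen hC (c := fun _ x3 => g3 x3) (fun _ x3 => hg3 x3)
  have t1 := part h0 h1 hB.tau n0 n1 n2 n3 hB.tst
    (P := fun x0 x1 x2 => (g1 x1 * g2 x2) * A x0 x1 x2) (Q := fun x0 x1 x3 => g3 x3 * C x0 x1 x3)
    kA1.sub kA1.card hA.m0 hC.m0 p11 p12 q13 q12
  -- term 2
  obtain ⟨p21, p22, p23⟩ := gen mAc.swap (c := fun x2 x1 => g1 x1 * g2 x2)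
    (fun x y => hgg hg1 hg2 y x)
  obtain ⟨q21, q22, q23⟩ := gen hB (c := fun _ x3 => g3 x3) (fun _ x3 => hg3 x3)
  have t2 := part h0 h1 hC.tau n0 n2 n1 n3 hC.tst
    (P := fun x0 x2 x1 => (g1 x1 * g2 x2) * (A x0 x1 x2 * (cnd UA1 x0 x1 * 1)))
    (Q := fun x0 x2 x3 => g3 x3 * B x0 x2 x3) kA2.sub kA2.card hA.m0 hB.m0 p21 p22 q23 q22
  -- term 3
  obtain ⟨p31, p32, p33⟩ := gen mAt.swap (c := fun x2 x1 => g1 x1 * g2 x2)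
    (fun x y => hgg hg1 hg2 y x)
  have t3 := part' h0 h1 hC.tau n0 n2 n1 n3 hC.tst
    (P := fun x0 x2 x1 => (g1 x1 * g2 x2) * At x0 x1 x2)
    (Q := fun x0 x2 x3 => g3 x3 * B x0 x2 x3) kB2.sub kB2.card hA.m0 hB.m0 q21 q22 p33 p32
  -- term 4
  obtain ⟨p41, p42, p43⟩ := gen hC.swap (c := fun x3 x1 => g1 x1 * g3 x3)
    (fun x y => hgg hg1 hg3 y x)
  obtain ⟨q41, q42, q43⟩ := gen mBc.swap (c := fun _ x2 => g2 x2) (fun _ x2 => hg2 x2)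
  have t4 := part' h0 h1 hA.tau n0 n3 n1 n2 mAt.tst
    (P := fun x0 x3 x1 => (g1 x1 * g3 x3) * C x0 x1 x3)
    (Q := fun x0 x3 x2 => g2 x2 * (B x0 x2 x3 * (cnd UB2 x0 x2 * 1)))
    kB3.sub kB3.card hC.m0 hB.m0 q41 q42 p43 p42
  -- term 5
  obtain ⟨p51, p52, p53⟩ := gen mAt (c := fun x1 x2 => g1 x1 * g2 x2) (hgg hg1 hg2)
  have t5 := part' h0 h1 hB.tau n0 n1 n2 n3 mBt.tst
    (P := fun x0 x1 x2 => (g1 x1 * g2 x2) * At x0 x1 x2)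
    (Q := fun x0 x1 x3 => g3 x3 * C x0 x1 x3) kC1.sub kC1.card hA.m0 hC.m0 q11 q12 p53 p52
  -- term 6
  obtain ⟨p61, p62, p63⟩ := gen mCc.swap (c := fun x3 x1 => g1 x1 * g3 x3)
    (fun x y => hgg hg1 hg3 y x)
  obtain ⟨q61, q62, q63⟩ := gen mBt.swap (c := fun _ x2 => g2 x2) (fun _ x2 => hg2 x2)
  have t6 := part h0 h1 hA.tau n0 n3 n1 n2 mAt.tst
    (P := fun x0 x3 x1 => (g1 x1 * g3 x3) * (C x0 x1 x3 * (cnd UC1 x0 x1 * 1)))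
    (Q := fun x0 x3 x2 => g2 x2 * Bt x0 x2 x3) kC3.sub kC3.card hC.m0 hB.m0 p61 p62 q63 q62
  -- the pointwise identity
  have key : ∀ x0, |(∑ x1 ∈ s1, ∑ x2 ∈ s2, ∑ x3 ∈ s3, g1 x1 * g2 x2 * g3 x3 *
        (A x0 x1 x2 * B x0 x2 x3 * C x0 x1 x3)) -
      ∑ x1 ∈ s1, ∑ x2 ∈ s2, ∑ x3 ∈ s3, g1 x1 * g2 x2 * g3 x3 *
        (At x0 x1 x2 * Bt x0 x2 x3 * Ct x0 x1 x3)| ≤
      |∑ x1 ∈ s1, ∑ x2 ∈ s2, ∑ x3 ∈ s3, ((g1 x1 * g2 x2) * A x0 x1 x2) * B x0 x2 x3 *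
        (ind UA1 x0 x1 * (g3 x3 * C x0 x1 x3))| +
      |∑ x2 ∈ s2, ∑ x1 ∈ s1, ∑ x3 ∈ s3, ((g1 x1 * g2 x2) * (A x0 x1 x2 * (cnd UA1 x0 x1 * 1))) *
        C x0 x1 x3 * (ind UA2 x0 x2 * (g3 x3 * B x0 x2 x3))| +
      |∑ x2 ∈ s2, ∑ x1 ∈ s1, ∑ x3 ∈ s3, (ind UB2 x0 x2 * ((g1 x1 * g2 x2) * At x0 x1 x2)) *
        C x0 x1 x3 * (g3 x3 * B x0 x2 x3)| +
      |∑ x3 ∈ s3, ∑ x1 ∈ s1, ∑ x2 ∈ s2, (ind UB3 x0 x3 * ((g1 x1 * g3 x3) * C x0 x1 x3)) *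
        At x0 x1 x2 * (g2 x2 * (B x0 x2 x3 * (cnd UB2 x0 x2 * 1)))| +
      |∑ x1 ∈ s1, ∑ x2 ∈ s2, ∑ x3 ∈ s3, (ind UC1 x0 x1 * ((g1 x1 * g2 x2) * At x0 x1 x2)) *
        Bt x0 x2 x3 * (g3 x3 * C x0 x1 x3)| +
      |∑ x3 ∈ s3, ∑ x1 ∈ s1, ∑ x2 ∈ s2, ((g1 x1 * g3 x3) * (C x0 x1 x3 * (cnd UC1 x0 x1 * 1))) *
        At x0 x1 x2 * (ind UC3 x0 x3 * (g2 x2 * Bt x0 x2 x3))| := by
    intro x0
    have r2 : ∀ f : ℤ → ℤ → ℤ → ℝ, ∑ x2 ∈ s2, ∑ x1 ∈ s1, ∑ x3 ∈ s3, f x1 x2 x3 =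
        ∑ x1 ∈ s1, ∑ x2 ∈ s2, ∑ x3 ∈ s3, f x1 x2 x3 := fun f => sum_comm
    have r3 : ∀ f : ℤ → ℤ → ℤ → ℝ, ∑ x3 ∈ s3, ∑ x1 ∈ s1, ∑ x2 ∈ s2, f x1 x2 x3 =
        ∑ x1 ∈ s1, ∑ x2 ∈ s2, ∑ x3 ∈ s3, f x1 x2 x3 := fun f => by
      rw [sum_comm]
      exact sum_congr rfl fun x1 _ => sum_comm
    rw [r2, r2, r3, r3]
    have e0 : (∑ x1 ∈ s1, ∑ x2 ∈ s2, ∑ x3 ∈ s3, g1 x1 * g2 x2 * g3 x3 *
        (A x0 x1 x2 * B x0 x2 x3 * C x0 x1 x3)) -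
      ∑ x1 ∈ s1, ∑ x2 ∈ s2, ∑ x3 ∈ s3, g1 x1 * g2 x2 * g3 x3 *
        (At x0 x1 x2 * Bt x0 x2 x3 * Ct x0 x1 x3) =
      (∑ x1 ∈ s1, ∑ x2 ∈ s2, ∑ x3 ∈ s3, ((g1 x1 * g2 x2) * A x0 x1 x2) * B x0 x2 x3 *
        (ind UA1 x0 x1 * (g3 x3 * C x0 x1 x3))) +
      (∑ x1 ∈ s1, ∑ x2 ∈ s2, ∑ x3 ∈ s3, ((g1 x1 * g2 x2) * (A x0 x1 x2 * (cnd UA1 x0 x1 * 1))) *
        C x0 x1 x3 * (ind UA2 x0 x2 * (g3 x3 * B x0 x2 x3))) +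
      (∑ x1 ∈ s1, ∑ x2 ∈ s2, ∑ x3 ∈ s3, (ind UB2 x0 x2 * ((g1 x1 * g2 x2) * At x0 x1 x2)) *
        C x0 x1 x3 * (g3 x3 * B x0 x2 x3)) +
      (∑ x1 ∈ s1, ∑ x2 ∈ s2, ∑ x3 ∈ s3, (ind UB3 x0 x3 * ((g1 x1 * g3 x3) * C x0 x1 x3)) *
        At x0 x1 x2 * (g2 x2 * (B x0 x2 x3 * (cnd UB2 x0 x2 * 1)))) +
      (∑ x1 ∈ s1, ∑ x2 ∈ s2, ∑ x3 ∈ s3, (ind UC1 x0 x1 * ((g1 x1 * g2 x2) * At x0 x1 x2)) *
        Bt x0 x2 x3 * (g3 x3 * C x0 x1 x3)) +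
      (∑ x1 ∈ s1, ∑ x2 ∈ s2, ∑ x3 ∈ s3, ((g1 x1 * g3 x3) * (C x0 x1 x3 * (cnd UC1 x0 x1 * 1))) *
        At x0 x1 x2 * (ind UC3 x0 x3 * (g2 x2 * Bt x0 x2 x3))) := by
      simp only [← sum_sub_distrib, ← sum_add_distrib]
      refine sum_congr rfl fun x1 _ => sum_congr rfl fun x2 _ => sum_congr rfl fun x3 _ => ?_
      have i1 : ind UA1 x0 x1 = 1 - cnd UA1 x0 x1 := by have := ind_add_cnd UA1 x0 x1; linarith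
      have i2 : ind UA2 x0 x2 = 1 - cnd UA2 x0 x2 := by have := ind_add_cnd UA2 x0 x2; linarith
      have i3 : ind UB2 x0 x2 = 1 - cnd UB2 x0 x2 := by have := ind_add_cnd UB2 x0 x2; linarith
      have i4 : ind UB3 x0 x3 = 1 - cnd UB3 x0 x3 := by have := ind_add_cnd UB3 x0 x3; linarith
      have i5 : ind UC1 x0 x1 = 1 - cnd UC1 x0 x1 := by have := ind_add_cnd UC1 x0 x1; linarith
      have i6 : ind UC3 x0 x3 = 1 - cnd UC3 x0 x3 := by have := ind_add_cnd UC3 x0 x3; linarith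
      rw [i1, i2, i3, i4, i5, i6]
      simp only [hAt, hBt, hCt]
      ring
    rw [e0]
    refine (abs_add_le _ _).trans (add_le_add ?_ le_rfl)
    refine (abs_add_le _ _).trans (add_le_add ?_ le_rfl)
    refine (abs_add_le _ _).trans (add_le_add ?_ le_rfl)
    refine (abs_add_le _ _).trans (add_le_add ?_ le_rfl)
    exact abs_add_le _ _
  refine (sum_le_sum fun x0 _ => key x0).trans ?_
  rw [sum_add_distrib, sum_add_distrib, sum_add_distrib, sum_add_distrib, sum_add_distrib]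
  calc _ ≤ (s0.card : ℝ) * s1.card * s2.card * s3.card *
        (96 * τB * (eA * (a1 * mC)) ^ ((1 - e) / 2) * (mA * mC) ^ (e / 2)) +
      (s0.card : ℝ) * s2.card * s1.card * s3.card *
        (96 * τC * (eA * (a2 * mB)) ^ ((1 - e) / 2) * (mA * mB) ^ (e / 2)) +
      (s0.card : ℝ) * s2.card * s1.card * s3.card *
        (96 * τC * (eB * (b2 * mA)) ^ ((1 - e) / 2) * (mB * mA) ^ (e / 2)) +
      (s0.card : ℝ) * s3.card * s1.card * s2.card *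
        (96 * τA * (eB * (b3 * mC)) ^ ((1 - e) / 2) * (mB * mC) ^ (e / 2)) +
      (s0.card : ℝ) * s1.card * s2.card * s3.card *
        (96 * τB * (eC * (c1 * mA)) ^ ((1 - e) / 2) * (mC * mA) ^ (e / 2)) +
      (s0.card : ℝ) * s3.card * s1.card * s2.card *
        (96 * τA * (eC * (c3 * mB)) ^ ((1 - e) / 2) * (mC * mB) ^ (e / 2)) :=
        add_le_add (add_le_add (add_le_add (add_le_add (add_le_add t1 t2) t3) t4) t5) t6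
    _ = _ := by unfold eb; ring

end

end Vale.Agent.P141.PL.H319
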