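import Vale.Agent.P141.PL.H319.B5a
import Vale.Agent.P141.PL.H990.B5err
import Vale.Agent.P141.PL.H317.StCost
import Vale.Agent.P141.PL.H804.StarTh

/-! # The cost theorem -/

namespace Vale.Agent.P141.PL.H319

open Finset Vale.Agent.P141.PL
open Vale.Agent.P141.PL.H315 (Tri atm wt wN cube3 mx e12 e13 e23 A2 A2_nonneg)
open Vale.Agent.P141.PL.H990 (stopped q12 q13 q23 kR)
open Vale.Agent.P141.PL.H317 (B5a)

noncomputable section

open scoped Classical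

theorem err_th {n : ℕ} {e δ Λ θ : ℝ} (h0 : 0 < e) (h1 : e ≤ 1) (hδ : 0 < δ) (hΛ : 0 ≤ Λ)
    (hθ : 0 < θ) :
    Err n e δ Λ θ (2304 * ((n : ℝ) + 1) * Λ * (6 * θ * ((n : ℝ) + 1)) ^ ((1 - e) / 2)) := by
  intro G1 G2 G3 hG1 hG2 hG3 o ho K hK x u p12 p13 p23 bA1 bA2 bB2 bB3 bC1 bC3 fA1 fA2 fB2 fB3 fC1
    fC3
  have M12 : 0 < mx (cube3 K x) (e12 u.1) := bound_pos p12 le_mx_12
  have M13 : 0 < mx (cube3 K x) (e13 u.2.1) := bound_pos p13 le_mx_13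
  have M23 : 0 < mx (cube3 K x) (e23 u.2.2) := bound_pos p23 le_mx_23
  have key := H990.err_clause h0 h1 hδ.le hΛ hθ hG1 hG2 hG3 ho.le hK x u (Real.sqrt_pos.2 p12)
    (Real.sqrt_pos.2 p13) (Real.sqrt_pos.2 p23) M12 M13 M23 bA1 bA2 bB2 bB3 bC1 bC3
    (fun m _ => fA1.sub m) (fun m _ => fA2.sub m) (fun m _ => fB2.sub m) (fun m _ => fB3.sub m)
    (fun m _ => fC1.sub m) (fun m _ => fC3.sub m) (fun m _ => fA1.card m) (fun m _ => fA2.card m)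
    (fun m _ => fB2.card m) (fun m _ => fB3.card m) (fun m _ => fC1.card m) (fun m _ => fC3.card m)
  refine key.trans (mul_le_mul_of_nonneg_right ?_ (H315.wt_nonneg hδ.le e (cube3 K x) u))
  have hKn : (K : ℝ) + 1 ≤ (n : ℝ) + 1 := by
    have : (K : ℝ) ≤ n := by exact_mod_cast hK
    linarith
  have h2 : (6 * θ * ((K : ℝ) + 1)) ^ ((1 - e) / 2) ≤ (6 * θ * ((n : ℝ) + 1)) ^ ((1 - e) / 2) :=
    Real.rpow_le_rpow (by positivity) (by gcongr) (by linarith)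
  calc 6 * (((K : ℝ) + 1) * (384 * Λ) * (6 * θ * ((K : ℝ) + 1)) ^ ((1 - e) / 2))
      ≤ 6 * (((n : ℝ) + 1) * (384 * Λ) * (6 * θ * ((n : ℝ) + 1)) ^ ((1 - e) / 2)) := by gcongr
    _ = _ := by ring

/-- **B5a.** -/
theorem b5a_th {n : ℕ} {e δ Λ θ : ℝ} (h0 : 0 < e) (h1 : e ≤ 1) (hδ : 0 < δ) (hΛ : 0 ≤ Λ)
    (hθ : 0 < θ) : B5a n e δ Λ (192 * θ ^ (-e))
      (2304 * ((n : ℝ) + 1) * Λ * (6 * θ * ((n : ℝ) + 1)) ^ ((1 - e) / 2)) :=
  b5a_of_err h0 h1 hδ hθ (by positivity) (err_th h0 h1 hδ hΛ hθ)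

/-- **The cost theorem.** -/
theorem stCost : StCost :=
  H317.stCost_of_theta (C1 := 13 * 6601) (Cc := 192) (CE := 2304) (q1 := 5) (by norm_num)
    (by norm_num) (by norm_num) H804.star_th fun n _ δ Λ θ hδ hΛ hθ _ =>
      b5a_th (H317.ee_pos' n) ((H317.ee_le' n).trans (by norm_num)) hδ (by linarith) hθ

end

end Vale.Agent.P141.PL.H319
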